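import Vale.Agent.P057SG.Plan

/-!
Frozen cube systems, and the model of a chain of refinements.
-/

set_option linter.all false

open Matrix Finset
open Vale.Agent.P267.H775 Vale.Agent.P057G Vale.Agent.P057PC Vale.Agent.P057TP Vale.Agent.P057MA
open Vale.Agent.P057ST Vale.Agent.P057SG
open Vale.Agent.P057DP (pbo)
open Vale.Agent.P057SY (fo)
open Vale.Agent.P057IV (Sy Stp Good mp Lk)

namespace Vale.Agent.P057FC

noncomputable section

open Classical

section can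

variable {T : Tow} {C W O : Type} {cl : W → C} {m : ℕ}

/-- every frozen vertex is a class of its own -/
def cO (cl : W → C) (O : Type) : W ⊕ O → C ⊕ O := Sum.map cl id

/-- all labels over the live and the frozen vertices -/
abbrev Lp (T : Tow) (cl : W → C) (O : Type) (m : ℕ) : Type := Lb T (cO cl O) Unit m

/-- labels that see the special vertex or a live vertex -/
def Live (k : Lp T cl O m) : Prop := k.bs ≠ none ∨ k.fc.toLeft.Nonempty

instance : DecidablePred (Live : Lp T cl O m → Prop) := Classical.decPred _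

abbrev Ll (T : Tow) (cl : W → C) (O : Type) (m : ℕ) : Type := {k : Lp T cl O m // Live k}

/-- `r` on the frozen labels, `r + D y` on the live labels -/
def xp {R : Type} [CommRing R] (r : Lp T cl O m → R) (D : R) (y : Ll T cl O m → R)
    (k : Lp T cl O m) : R := r k + if h : Live k then D * y ⟨k, h⟩ else 0

/-- a cell together with the frozen parts of its vertices -/
def up [Fintype O] (μ : O → Option W) (c : Finset W) : Finset (W ⊕ O) :=
  c.disjSum (univ.filter fun o => ∃ v ∈ c, μ o = some v)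

/-- the positions of the live labels on a coset -/
def pz [Fintype W] [DecidableEq W] [Fintype O] [DecidableEq O] (Z : Sys T (W ⊕ O) Unit)
    (r : Lp T cl O m → ℤ) (c : Ll T cl O m → ℝ) (D : ℕ) (y : Ll T cl O m → ℝ) (k : Ll T cl O m) :
    ℝ := y k - (Z.pr (cO cl O) m (xp (toR r) D y) k + c k - r k) / D

end can

/-- the live labels of a frozen cube system on a coset are the labels of a canonical system -/
def CAN : Prop :=
  ∀ (s : ℕ) (N : ℝ) (T : Tow) (C W O : Type) [Fintype W] [DecidableEq W] [Fintype O]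
    [DecidableEq O] (cl : W → C) (m : ℕ) (Z : Sys T (W ⊕ O) Unit) (μ : O → Option W)
    (r : Lp T cl O m → ℤ) (c : Ll T cl O m → ℝ) (D : ℕ) (Λ : ℝ) (Y : ℕ → ℝ), T.Ok s N → Z.Ok →
    1 ≤ D → 1 ≤ Λ → (∀ j, 0 ≤ Y j ∧ T.yy N j ≤ Y j) →
    ∃ (T' : Tow) (Z' : Sys T' W Unit) (e : Lb T' cl Unit m ≃ Ll T cl O m), T'.Ok s N ∧ Z'.Ok ∧
      Up m T' T ∧ (∀ i, i < m →
        T'.dm i ≤ T.dm i + (Fintype.card O + 1) ^ m * ∑ j ∈ Ioo i m, T.dm j ∧
        T'.yy N i ≤ T.yy N i + (Fintype.card O + 1) ^ m * ∑ j ∈ Ioo i m, Y j +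
          T'.dm i * Real.log ((D : ℝ) ^ 2 * Λ) / 2) ∧
      (∀ l, (e l).1.bs = l.bs ∧ (e l).1.fc.toLeft = l.fc ∧
        T'.lv l.cd + (e l).1.fc.toRight.card = T.lv (e l).1.cd) ∧
      (∀ z, Z'.w cl m z = ng (((D : ℝ) ^ 2 * Λ) • bk (Gam T (cO cl O) Unit m) Live)
        (pz Z r c D (toR z ∘ e.symm))) ∧
      (∀ z, qq (Gam T' cl Unit m) (Z'.ps cl m z) = (D : ℝ) ^ 2 * Λ *
        qq (bk (Gam T (cO cl O) Unit m) Live) (pz Z r c D (toR z ∘ e.symm))) ∧
      ∀ f z A, Z'.F cl m f z A () = Z.F (cO cl O) m f (xp r D (z ∘ e.symm)) (up μ A) ()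

/-- transfer of a signed lower bound along an integer map with a section -/
def TRX : Prop :=
  ∀ (L K : Type) [Fintype L] [DecidableEq L] [Fintype K] [DecidableEq K] (lv : L → ℕ)
    (p : (L → ℤ) → L → ℝ) (Γ : Matrix L L ℝ) (e : K → L) (S : Matrix K L ℤ) (r : K → ℤ)
    (p' : (K → ℤ) → K → ℝ) (A : Matrix K K ℝ) (f : (K → ℤ) → ℝ) (B σ : ℝ), Tri lv p → Γ.PosDef →
    (∀ k k', S k (e k') = (1 : Matrix K K ℤ) k k') → (∀ k l, S k l ≠ 0 → lv l ≤ lv (e k)) →
    (∀ z, p' (r + S *ᵥ z) = toR r + mR S *ᵥ p z) → A.PosDef →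
    (∀ v, 2 * qq A (mR S *ᵥ v) ≤ qq Γ v) → (∀ y, |f y| ≤ B) → 0 < σ → σ ≤ Er A p' f →
    ∃ c, σ / 2 ≤ Er ((2 : ℝ) • Γ) (fun z => p z + c) fun z => f (r + S *ᵥ z)

section model

variable {T : Tow} {n p : ℕ} {R O : Type}

/-- the vertices of a model: the displacement, the live vertices, the frozen vertices -/
abbrev Vo (n p : ℕ) (O : Type) : Type := Option (Wv n p ⊕ O)

/-- classes; `π o` is the old vertex of which `o` is a part -/
def cVo (π : O → Uv n p R) : Vo n p O → Option (Option (Fin n)) :=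
  Option.map (Sum.elim (fun v => some v.1) fun o => cU (π o))

def omo (π : O → Uv n p R) : Vo n p O → Option (Uv n p R) := Option.map (Sum.elim Sum.inl π)

def jko (jo : O → Option (Uv n p R)) (x : Vo n p O) : Option (Uv n p R) :=
  x.bind (Sum.elim (fun _ => none) jo)

def lco (x : Vo n p O) : Finset (Option (Fin n)) :=
  x.elim {none} (Sum.elim (fun v => {some v.1}) fun _ => ∅)

abbrev Lo (T : Tow) (π : O → Uv n p R) : Type := Lb T (cVo π) Empty (n + 2)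

variable {π : O → Uv n p R}

def lfo (l : Lo T π) : Finset (Option (Fin n)) := l.fc.biUnion lco

def Livo (l : Lo T π) : Prop := (lfo l).Nonempty

instance : DecidablePred (Livo : Lo T π → Prop) := Classical.decPred _

abbrev Lvo (T : Tow) (π : O → Uv n p R) : Type := {l : Lo T π // Livo l}

/-- the frozen labels `D` and the live labels with their multipliers -/
def glo (e : Vo n p O → ℕ) (x : Lvo T π → ℝ) (D : Lo T π → ℤ) (l : Lo T π) : ℝ :=
  if h : Livo l then (∏ u ∈ l.fc, (e u : ℝ)) * x ⟨l, h⟩ else D l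

/-- the old labels: sums over the parts of the vertices -/
def rmo [Fintype O] (y : Lo T π → ℝ) (l : Lb T (cU : Uv n p R → _) Unit (n + 2)) : ℝ :=
  ∑ k : Lo T π, if k.cd = l.cd ∧ k.fc.image (omo π) = fo l ∧ l.Pure then y k else 0

/-- the data of a model -/
structure Mdd (T : Tow) (n p : ℕ) (R ι : Type) : Type 1 where
  O : Type
  [fi : Fintype O]
  [de : DecidableEq O]
  π : O → Uv n p R
  jo : O → Option (Uv n p R)
  D : Lo T π → ℤ
  e : Vo n p O → ℕ
  g : Vo n p O → ℝ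
  lab : Lvo T π → ι

attribute [instance] Mdd.fi Mdd.de

variable {ι : Type} [Fintype ι] [DecidableEq ι] (M : Mdd T n p R ι)

/-- the extra coordinates -/
def Mdd.ex : Finset ι := univ.filter fun j => j ∉ Set.range M.lab

/-- the core coordinates on the faces without the displacement -/
def Mdd.cw : Finset ι := univ.filter fun j => ∃ l, M.lab l = j ∧ none ∉ l.1.fc

variable [Fintype R] [DecidableEq R]

/-- `S` consists of the live pure labels of a frozen cube system and of extra coordinates; `k`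
steps with parameters at most `exp U` and at most `U` new coordinates were made -/
structure Md (Z : Sys T (Uv n p R) Unit) (γ : ℝ) (S : MS (Option (Fin n)) ι)
    (φ : (ι → ℝ) → Lb T (cU : Uv n p R → _) Unit (n + 2) → ℝ) (k : ℕ) (U : ℝ) : Prop where
  jp : ∀ o u, M.jo o = some u → M.π o = u
  ju : ∀ u, ∃! o, M.jo o = some u
  inj : M.lab.Injective
  fc : ∀ l, S.fc (M.lab l) = lfo l.1
  lv : ∀ l, S.lv (M.lab l) = T.lv l.1.cd
  G : ∀ l l', S.G (M.lab l) (M.lab l') =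
    (∏ u ∈ l.1.fc, M.g u) * Gam T (cVo M.π) Empty (n + 2) l.1 l'.1
  cen : ∀ z l, (∏ u ∈ l.1.fc, (M.e u : ℝ)) * S.p z (M.lab l) =
    (pbo Z (jko M.jo) Empty).pr (cVo M.π) (n + 2) (glo M.e (z ∘ M.lab) M.D) l.1
  map : ∀ z, φ z = rmo (glo M.e (z ∘ M.lab) M.D)
  e0 : M.e none = 1
  g0 : M.g none = γ
  eb : ∀ u, 1 ≤ M.e u ∧ (M.e u : ℝ) ≤ Real.exp (k * U)
  gb : ∀ u, 1 ≤ M.g u ∧ M.g u ≤ Real.exp ((2 * k + 1) * U)
  eg : ∀ u, (M.e u : ℝ) ^ 2 ≤ M.g u
  cO : Fintype.card M.O ≤ Fintype.card (Uv n p R) + k * (n * p)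
  xf : ∀ j ∈ M.ex, none ∉ S.fc j
  xl : ∀ j ∈ M.ex, (∀ l, S.lv (M.lab l) < S.lv j) ∧ S.lv j ≤ n + 2 + k
  xc : (M.ex.card : ℝ) ≤ (2 ^ k - 1) * U
  xx : cx S.G M.ex ≤ Real.exp (k * 2 ^ k * (U + 1) * U)
  xs : ∀ z : M.ex → ℤ, z ≠ 0 → 1 ≤ qq (blk S.G M.ex) (toR z)

end model

/-- the root system has a model -/
def MROOT : Prop :=
  ∀ (T : Tow) (n p : ℕ) (R : Type) [Fintype R] [DecidableEq R] (Z : Sys T (Uv n p R) Unit)
    (lam γ U : ℝ) (D : Fz T n p R → ℤ), 1 ≤ lam → lam ≤ Real.exp U → 1 ≤ γ → γ ≤ Real.exp U →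
    ∃ M : Mdd T n p R (Lv T n p R), Md M Z γ (root Z lam γ D) (rmap D) 0 U ∧
      M.cw = fce (root Z lam γ D) (BB n)

/-- a refinement step keeps the model -/
def MSTEP : Prop :=
  ∀ (s₀ : ℕ) (N : ℝ) (T : Tow) (n p : ℕ) (R : Type) [Fintype R] [DecidableEq R]
    (Z : Sys T (Uv n p R) Unit) (γ U Λ : ℝ) (ι : Type) [Fintype ι] [DecidableEq ι]
    (S : MS (Option (Fin n)) ι) (φ : (ι → ℝ) → Lb T (cU : Uv n p R → _) Unit (n + 2) → ℝ) (k : ℕ)
    (M : Mdd T n p R ι) (s : Stp (Option (Fin n)) ι) (o : ι → ℤ), T.Ok s₀ N → Z.Ok → S.Ok →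
    S.Cen → 1 ≤ Λ → 0 ≤ U → Good S s (BB n) Λ (Real.exp U) U →
    (∀ z : s.X → ℤ, z ≠ 0 → 1 ≤ qq s.G (toR z)) → Md M Z γ S φ k U →
    ∃ M' : Mdd T n p R ((ι ⊕ s.X) ⊕ Lk S s.b),
      Md M' Z γ (P057IV.rf S s o) (φ ∘ mp S s o) (k + 1) U ∧
      (∀ i, Sum.inl (Sum.inl i) ∈ M'.cw ↔ i ∈ M.cw) ∧ (∀ x, Sum.inl (Sum.inr x) ∉ M'.cw) ∧
      ∀ l : Lk S s.b, Sum.inr l ∈ M'.cw ↔ l.1 ∈ M.cw

end

end Vale.Agent.P057FC
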