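import Vale.Agent.P057AS.Plan
import Vale.Agent.P057DI.Sig

/-! The frozen cube system over a model, and the parts of the transfer. -/

set_option linter.all false

open Matrix Finset
open Vale.Agent.P267.H775 Vale.Agent.P057G Vale.Agent.P057PC Vale.Agent.P057TP Vale.Agent.P057MA
open Vale.Agent.P057SG Vale.Agent.P057AS
open Vale.Agent.P057ST (mR Er)
open Vale.Agent.P057DP (pbo img)
open Vale.Agent.P057DI (sig)

namespace Vale.Agent.P057FC

noncomputable section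

open Classical

/-- a cell with the frozen vertices that lie over its vertices or over the base -/
def upz {W O : Type} [Fintype O] (μ : O → Option (Option W)) (c : Finset W) : Finset (W ⊕ O) :=
  c.disjSum (univ.filter fun o => ∃ x, μ o = some x ∧ ∀ v, x = some v → v ∈ c)

variable {T : Tow} {n p : ℕ} {R O : Type}

/-- live vertices, frozen vertices, and one more frozen vertex `inr none` over the base -/
abbrev Wz (n p : ℕ) (O : Type) : Type := Wv n p ⊕ Option O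

abbrev cZ (n p : ℕ) (O : Type) : Wz n p O → Fin n ⊕ Option O := cO Prod.fst (Option O)

abbrev Lz (T : Tow) (n p : ℕ) (O : Type) : Type := Lb T (cZ n p O) Unit (n + 2)

def omz (π : O → Uv n p R) : Wz n p O → Option (Uv n p R) :=
  Sum.elim (fun v => some (Sum.inl v)) (Option.map π)

def jkz (jo : O → Option (Uv n p R)) : Wz n p O → Option (Uv n p R) :=
  Sum.elim (fun _ => none) fun o => o.bind jo

def muz (π : O → Uv n p R) (o : Option O) : Option (Option (Wv n p)) :=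
  o.elim (some none) fun o => Sum.elim (fun v => some (some v)) (fun _ => none) (π o)

def emz : Wv n p ⊕ O ↪ Wz n p O :=
  ⟨Sum.map id some, Function.injective_id.sumMap (Option.some_injective _)⟩

/-- the labels of the model as pure labels -/
def ic {π : O → Uv n p R} (l : Lo T π) : Lz T n p O :=
  ⟨(l.cd, (eraseNone l.fc).map emz, if none ∈ l.fc then some () else none), l.2.1, by
    rintro (a | a) ha (b | b) hb e
    · obtain ⟨a' | a', h1, h2⟩ := mem_map.1 ha <;> cases h2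
      obtain ⟨b' | b', h3, h4⟩ := mem_map.1 hb <;> cases h4
      have := l.2.2.1 (mem_eraseNone.1 h1) (mem_eraseNone.1 h3)
        (congrArg (fun i => some (some i)) (Sum.inl_injective e))
      cases this; rfl
    · exact absurd e Sum.inl_ne_inr
    · exact absurd e Sum.inr_ne_inl
    · exact congrArg _ (Sum.inr_injective e), by
    have h : l.fc.card = T.lv l.cd := by
      have := l.2.2.2
      rcases k : l.1.2.2 with _ | e
      exacts [by rwa [k] at this, e.elim]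
    split_ifs with k
    · exact (card_map _).trans_lt (h ▸ card_eraseNone_of_mem k ▸ Nat.sub_lt (card_pos.2 ⟨_, k⟩) one_pos)
    · exact (card_map _).trans ((card_eraseNone_of_not_mem k).trans h)⟩

variable {ι : Type} [Fintype ι] [DecidableEq ι] [Fintype R] [DecidableEq R] (M : Mdd T n p R ι)

/-- the frozen cube system -/
def Zz (Z : Sys T (Uv n p R) Unit) : Sys T (Wz n p M.O) Unit := pbo Z (jkz M.jo) Unit

/-- the shift of the centres over the displacement -/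
def cz (Z : Sys T (Uv n p R) Unit) (x : ι → ℤ) : ι → ℝ :=
  Function.extend M.lab (fun l => if none ∈ l.1.fc then (Zz M Z).pr (cZ n p M.O) (n + 2)
    (Function.extend ic (fun k => if none ∈ k.fc then 0 else glo M.e (toR x ∘ M.lab) M.D k) 0)
    (ic l.1) / ∏ u ∈ l.1.fc, (M.e u : ℝ) else 0) 0

/-- the multiplier of a label of the model -/
def mo (d : ℕ) (l : Lo T M.π) : ℤ := (if none ∈ l.fc then d else 1) * ∏ u ∈ l.fc, (M.e u : ℤ)

def mz (d : ℕ) : Lz T n p M.O → ℤ := Function.extend ic (fun l => if Livo l then mo M d l else 1) 1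

/-- the configuration with the coordinates `ξ` -/
def Xz (d : ℕ) (ξ : Lz T n p M.O → ℤ) : Lz T n p M.O → ℤ :=
  Function.extend ic (fun l => if Livo l then mo M d l * ξ (ic l) else M.D l) ξ

/-- the coordinates of the intermediate state -/
abbrev Kz : Type := Lvo T M.π ⊕ (Lg T n p R ⊕ NP T (cU : Uv n p R → _) (n + 2))

def Sz : Matrix (Kz M) (Lz T n p M.O) ℤ := of fun k i =>
  Sum.elim (fun l => if i = ic l.1 then 1 else 0) (Sum.elim
    (fun l => if i.cd = l.1.cd ∧ img (omz M.π) i.fc = l.1.fc ∧ i.bs = none then 1 else 0)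
    fun l => if i.cd = l.1.cd ∧ img (omz M.π) i.fc = l.1.fc then 1 else 0) k

def xk (η : Kz M → ℤ) : ι → ℤ := Function.extend M.lab (η ∘ Sum.inl) 0

def zk (η : Kz M → ℤ) : Lg T n p R → ℤ := η ∘ Sum.inr ∘ Sum.inl

/-- the old configuration -/
def ok (φ : (ι → ℝ) → Lu T n p R → ℝ) (d : ℕ) (η : Kz M → ℤ) : Lu T n p R → ℤ :=
  gl3 (rp (φ (toR (xk M η)))) (fun l => zk M η l + d * round (φ (toR (xk M η)) l))
    (η ∘ Sum.inr ∘ Sum.inr)

/-- the centres of the intermediate state -/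
def pk (Z : Sys T (Uv n p R) Unit) (S : MS (Option (Fin n)) ι) (φ : (ι → ℝ) → Lu T n p R → ℝ)
    (c0 : (ι → ℤ) → ι → ℝ) (d : ℕ) (η : Kz M → ℤ) : Kz M → ℝ :=
  Sum.elim (fun l => S.p (toR (xk M η)) (M.lab l) + (d : ℝ)⁻¹ * c0 (xk M η) (M.lab l)) (Sum.elim
    (fun l => cL Z (rp (φ (toR (xk M η)))) (toR (zk M η)) l - φ (c0 (xk M η)) l)
    fun l => Z.pr cU (n + 2) (toR (ok M φ d η)) l)

/-- the Gram matrix of the intermediate state -/
def Ak (S : MS (Option (Fin n)) ι) (ω : ℝ) (G : Matrix (Lg T n p R) (Lg T n p R) ℝ) :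
    Matrix (Kz M) (Kz M) ℝ :=
  fromBlocks ((dil S {none} ω).G.submatrix M.lab M.lab) 0 0
    (fromBlocks G 0 0 (bk (Gam T cU Unit (n + 2)) No))

/-- a statement about all models -/
def AllM (Q : ∀ (T : Tow) (n p : ℕ) (R ι : Type) [Fintype ι] [DecidableEq ι] [Fintype R]
    [DecidableEq R], Mdd T n p R ι → Sys T (Uv n p R) Unit → MS (Option (Fin n)) ι →
    ((ι → ℝ) → Lu T n p R → ℝ) → ℕ → ℝ → ℕ → Prop) : Prop :=
  ∀ (s : ℕ) (N : ℝ) (T : Tow) (n p : ℕ) (R ι : Type) [Fintype ι] [DecidableEq ι] [Fintype R]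
    [DecidableEq R] (M : Mdd T n p R ι) (Z : Sys T (Uv n p R) Unit) (γ : ℝ)
    (S : MS (Option (Fin n)) ι) (φ : (ι → ℝ) → Lu T n p R → ℝ) (k : ℕ) (U : ℝ) (d : ℕ),
    T.Ok s N → Z.Ok → S.Ok → Md M Z γ S φ k U → 0 ≤ U → 0 < d → Q T n p R ι M Z S φ k U d

/-- the section, the multipliers, the shift -/
def SEC : Prop := AllM fun T n p R ι _ _ _ _ M Z S _ _ _ d =>
  (∃ e : Kz M → Lz T n p M.O, (∀ k k', Sz M k (e k') = (1 : Matrix _ _ ℤ) k k') ∧
    ∀ k i, Sz M k i ≠ 0 → T.lv i.cd ≤ T.lv (e k).cd) ∧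
  (∀ i, 0 < mz M d i ∧ mz M d i ∣ (d * ∏ u, M.e u : ℕ) ∧ (¬Live i → mz M d i = 1) ∧
    (∀ ξ, Live i → Xz M d ξ i = mz M d i * ξ i) ∧
    ∀ ξ ξ', ξ i = ξ' i → Xz M d ξ i = Xz M d ξ' i) ∧
  (∀ l : Lvo T M.π, Live (ic l.1) ∧ (ic l.1).Pure ∧
    ∀ v, v ∈ lvf l.1 ↔ v.elim ((ic l.1).bs ≠ none) (Sum.inl · ∈ (ic l.1).fc)) ∧
  Sh S M.ex (cz M Z)

/-- the centres -/
def CEN : Prop := AllM fun _ n p _ _ _ _ _ _ M Z S φ _ _ d =>
  ∀ ξ, pk M Z S φ (cz M Z) d (Sz M *ᵥ ξ) = mR (Sz M) *ᵥ fun i =>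
    (Zz M Z).pr (cZ n p M.O) (n + 2) (toR (Xz M d ξ)) i / mz M d i

/-- the old configuration and the functions on the cells -/
def OLD : Prop := AllM fun _ n p _ _ _ _ _ _ M Z _ φ _ _ d =>
  (∀ ξ, ok M φ d (Sz M *ᵥ ξ) = sig (omz M.π) () (Xz M d ξ)) ∧
  ∀ f X, ∀ c ∈ cells (Prod.fst : Wv n p → Fin n),
    Z.F cU (n + 2) f (sig (omz M.π) () X) (c.image Sum.inl) () =
      (Zz M Z).F (cZ n p M.O) (n + 2) f X (upz (muz M.π) c) ()

/-- the Gram matrices -/
def GRM : Prop := AllM fun T n p R _ _ _ _ _ M _ S _ k U d =>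
  ∀ ω G, 1 ≤ ω → (∀ v, qq G v ≤ qq (bk (Gam T cU Unit (n + 2)) Li) v) → ∀ v,
    qq (Ak M S ω G) (mR (Sz M) *ᵥ v) ≤ (ω ^ 2 * Real.exp ((n + 2) * ((2 * k + 1) * U)) +
      2 * 8 ^ (Fintype.card (Uv n p R) + Fintype.card (Wz n p M.O) + 1)) *
      qq (Gam T (cZ n p M.O) Unit (n + 2)) (toR (mz M d) * v)

/-- the intermediate state as one sum -/
def FUB : Prop := AllM fun _ _ _ _ _ _ _ _ _ M Z S φ _ _ d =>
  ∀ c0 ω G h f θ B κ σ lv, 1 ≤ ω → G.PosDef → (∀ x z, |h x z| ≤ 1) → (∀ z, |EG Z f θ z| ≤ B) →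
    Tri lv (pk M Z S φ c0 d) → MSt Z S M.ex φ c0 ω d G h f θ κ σ → (Ak M S ω G).PosDef ∧
    σ ≤ Er (Ak M S ω G) (pk M Z S φ c0 d) fun η =>
      h (xk M η) (zk M η) * EG Z f θ (ok M φ d η) - κ

end

end Vale.Agent.P057FC
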