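import Vale.Agent.P057FC.Trf
import Vale.Agent.P057TF.Sec
import Vale.Agent.P057TF.Cen
import Vale.Agent.P057TF.Old
import Vale.Agent.P057TF.Grm
import Vale.Agent.P057TF.Fub
import Vale.Agent.P057AB.Asb
import Vale.Agent.P057AS.Mst
import Vale.Agent.P057SK.Sig
import Vale.Agent.P057DI.Gdc
import Vale.Agent.P057DM.Dem

/-! From the multi-affine model to a kernel state. -/

namespace Vale.Agent.P057FC

theorem trf_all (s : ℕ) : P057AS.TRF s :=
  trf P057TF.sec (P057TF.cen P057TF.old) P057TF.old P057TF.grm P057TF.fub s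

theorem asm (s : ℕ) : P057SG.ASM s :=
  P057AB.asb s P057SK.sig (P057DI.gdc s) P057AS.mst (trf_all s) P057DM.dem

end Vale.Agent.P057FC
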