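import Vale.Agent.P057TP.Alg3
import Mathlib.Data.Finset.Sum

/-! Extraction of the part of a polynomial with a given set of frozen vertices. -/

set_option linter.all false

open Finset MvPolynomial
open Vale.Agent.P057TP

namespace Vale.Agent.P057FC

noncomputable section

variable {W O R κ : Type} [CommRing R] [DecidableEq W] [DecidableEq O]

theorem dlt_disj (g : Finset (W ⊕ O) → R) (A : Finset W) (Q : Finset O) :
    dlt g (A.disjSum Q) = dlt (fun B => dlt (fun E => g (B.disjSum E)) Q) A := by
  simp only [dlt, mul_sum]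
  rw [← sum_product']
  refine sum_nbij' (fun B => (B.toLeft, B.toRight)) (fun x => x.1.disjSum x.2) (fun B hB => ?_)
    (fun x hx => ?_) (fun B _ => toLeft_disjSum_toRight) (fun x _ => by simp) fun B hB => ?_
  · simpa [subset_disjSum] using hB
  · simp only [mem_product, mem_powerset] at hx ⊢
    exact disjSum_mono hx.1 hx.2
  · obtain ⟨h1, h2⟩ := subset_disjSum.1 (mem_powerset.1 hB)
    have h3 := card_le_card h1
    have h4 := card_le_card h2
    rw [toLeft_disjSum_toRight, ← mul_assoc, ← pow_add, card_disjSum,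
      ← card_toLeft_add_card_toRight (u := B)]
    congr 2
    dsimp only
    omega

/-- the monomials whose frozen vertices are `Q`, with these vertices removed -/
def ex (Q : Finset O) : Lam R (W ⊕ O) →ₗ[R] Lam R W :=
  (basisMonomials (Option (W ⊕ O)) R).constr R fun μ =>
    if (spW μ).toRight = Q then mon (spW μ).toLeft (μ.degree - Q.card) else 0

theorem ex_monomial (Q : Finset O) (μ : Option (W ⊕ O) →₀ ℕ) (r : R) :
    ex Q (monomial μ r) = if (spW μ).toRight = Q then
      C r * mon (spW μ).toLeft (μ.degree - Q.card) else 0 := by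
  have h : (monomial μ r : Lam R (W ⊕ O)) = r • basisMonomials _ R μ := by
    simp [smul_monomial]
  rw [h, map_smul, ex, Module.Basis.constr_basis]
  split_ifs
  exacts [smul_eq_C_mul _ _, smul_zero _]

theorem ex_sum (Q : Finset O) (x : Lam R (W ⊕ O)) :
    ex Q x = ∑ μ ∈ x.support, ex Q (monomial μ (coeff μ x)) := by
  conv_lhs => rw [x.as_sum, map_sum]

theorem evA_ex (Q : Finset O) (A : Finset W) (x : Lam R (W ⊕ O)) :
    evA A (ex Q x) = dlt (fun E => evA (A.disjSum E) x) Q := by
  induction x using MvPolynomial.induction_on' with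
  | add p q hp hq => simp only [map_add, hp, hq, dlt_add]
  | monomial μ r =>
    simp only [ex_monomial, evA_monomial, subset_disjSum]
    by_cases h : (spW μ).toLeft ⊆ A
    · simp only [h, true_and, dlt_ind, apply_ite (evA A), map_mul, evA_C, evA_mon, if_true,
        mul_one, map_zero]
    · simp [h, dlt, apply_ite (evA A), evA_mon]

theorem card_sp (μ : Option (W ⊕ O) →₀ ℕ) :
    (spW μ).toLeft.card + (spW μ).toRight.card + μ none ≤ μ.degree := by
  rw [card_toLeft_add_card_toRight]; exact card_spW_le μ

theorem ex_hom (Q : Finset O) {x : Lam R (W ⊕ O)} {d : ℕ} (h : IsHomogeneous x d)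
    {μ : Option W →₀ ℕ} (hμ : coeff μ (ex Q x) ≠ 0) : μ.degree + Q.card = d := by
  rw [ex_sum, coeff_sum] at hμ
  obtain ⟨ν, h1, h2⟩ := exists_ne_zero_of_sum_ne_zero hμ
  have h3 := deg_of_hom h (mem_support_iff.1 h1)
  have h4 := card_sp ν
  rw [ex_monomial] at h2
  split_ifs at h2 with k
  · rw [k] at h4
    have := deg_of_hom ((mon_hom (R := R) (A := (spW ν).toLeft) (d := ν.degree - Q.card)
      (by omega)).C_mul _) h2
    omega
  · exact absurd (coeff_zero _) h2

theorem kt_ex (Q : Finset O) (x : Lam R (W ⊕ O)) : kt (ex Q (kt x)) = kt (ex Q x) := by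
  induction x using MvPolynomial.induction_on' with
  | add p q hp hq => simp only [map_add, hp, hq]
  | monomial μ r =>
    rw [kt_monomial]
    split_ifs with h
    · rfl
    · have h4 := card_sp μ
      rw [map_zero, map_zero, ex_monomial]
      split_ifs with k
      · rw [k] at h4
        rw [map_mul, kt_mon, if_pos (by omega), mul_zero]
      · exact (map_zero _).symm

theorem cc_ex (x : Lam R (W ⊕ O)) :
    constantCoeff (ex (∅ : Finset O) x) = constantCoeff x := by
  induction x using MvPolynomial.induction_on' with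
  | add p q hp hq => simp only [map_add, hp, hq]
  | monomial μ r =>
    rw [ex_monomial, constantCoeff_monomial]
    by_cases h : μ = 0
    · subst h; simp [spW, mon, toLeft, toRight]
    · rw [if_neg h]
      split_ifs with k
      · have h4 := card_sp μ
        have h5 : μ.degree ≠ 0 := fun m => h ((Finsupp.degree_eq_zero_iff μ).1 m)
        rw [constantCoeff_eq]
        exact ((mon_hom (d := μ.degree - (∅ : Finset O).card) (by simp; omega)).C_mul
          r).coeff_eq_zero (by simpa using h5.symm)
      · exact map_zero _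

/-- the extraction on the coefficients -/
def exP (Q : Finset O) (p : MvPolynomial κ (Lam R (W ⊕ O))) : MvPolynomial κ (Lam R W) :=
  ∑ β ∈ p.support, monomial β (ex Q (coeff β p))

theorem coeff_exP (Q : Finset O) (p : MvPolynomial κ (Lam R (W ⊕ O))) (β : κ →₀ ℕ) :
    coeff β (exP Q p) = ex Q (coeff β p) := by
  classical
  simp only [exP, coeff_sum, coeff_monomial, sum_ite_eq']
  split_ifs with h
  exacts [rfl, by rw [notMem_support_iff.1 h, map_zero]]

theorem JH_exP (Q : Finset O) {lw : κ → ℕ} {p : MvPolynomial κ (Lam R (W ⊕ O))} {d : ℕ}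
    (h : JH lw p d) : JH lw (exP Q p) (d - Q.card) := fun β μ e => by
  rw [coeff_exP] at e
  obtain ⟨h1, h2⟩ := h.coeff (β := β) (mem_support_iff.2 fun c => e (by simp [c]))
  have := ex_hom Q h2 e
  omega

theorem kt_exP (Q : Finset O) {p p' : MvPolynomial κ (Lam R (W ⊕ O))}
    (h : map kt p = map kt p') : map kt (exP Q p) = map kt (exP Q p') := by
  refine MvPolynomial.ext _ _ fun β => ?_
  have := congrArg (coeff β) h
  rw [coeff_map, coeff_map] at this
  rw [coeff_map, coeff_map, coeff_exP, coeff_exP, ← kt_ex, this, kt_ex]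

theorem cc_exP (p : MvPolynomial κ (Lam R (W ⊕ O))) :
    map constantCoeff (exP ∅ p) = map constantCoeff p :=
  MvPolynomial.ext _ _ fun β => by rw [coeff_map, coeff_map, coeff_exP, cc_ex]

theorem vars_exP (Q : Finset O) {p : MvPolynomial κ (Lam R (W ⊕ O))} {j : κ}
    (h : j ∈ (exP Q p).vars) : j ∈ p.vars := by
  classical
  obtain ⟨β, h1, h2⟩ := (mem_vars j).1 h
  exact (mem_vars j).2 ⟨β, mem_support_iff.2 fun c => mem_support_iff.1 h1
    (by rw [coeff_exP, c, map_zero]), h2⟩

theorem eval_exP (Q : Finset O) (A : Finset W) (p : MvPolynomial κ (Lam R (W ⊕ O))) (y : κ → R) :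
    eval y (map (evA A) (exP Q p)) = dlt (fun E => eval y (map (evA (A.disjSum E)) p)) Q := by
  simp only [eval_map, eval₂_eq (f := p), dlt_sum]
  rw [exP, eval₂_sum]
  refine sum_congr rfl fun β _ => ?_
  rw [eval₂_monomial, evA_ex, mul_comm, ← dlt_mul]
  exact dlt_congr fun E _ => mul_comm _ _

end

end Vale.Agent.P057FC
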