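import Vale.Agent.P057AD.Flat
import Vale.Agent.P057NA.Nar
import Mathlib.Data.Nat.Choose.Bounds

/-! Coordinates with a set of frozen vertices: Gram matrix, dimensions, covolumes. -/

set_option linter.all false

open Matrix Finset
open Vale.Agent.P267.H775 Vale.Agent.P057G Vale.Agent.P057PC Vale.Agent.P057TP Vale.Agent.P057ST
open Vale.Agent.P057NA (sc pd_sc le_sc)

namespace Vale.Agent.P057FC

noncomputable section

open Classical

theorem det_fib {ι τ : Type} [Fintype ι] [DecidableEq ι] [Fintype τ] [DecidableEq τ] (b : ι → τ)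
    {M : Matrix ι ι ℝ} (h : ∀ i j, b i ≠ b j → M i j = 0) :
    M.det = ∏ k, (bk M fun i => b i = k).det := by
  letI : LinearOrder τ := linearOrderOfSTO WellOrderingRel
  have : M.BlockTriangular b := fun i j e => h i j e.ne'
  rw [this.det_fintype]
  exact prod_congr rfl fun k _ => by congr

theorem sum_card {O : Type} [Fintype O] {i m : ℕ} (hi : i < m) {F Y : ℕ → ℝ} (h0 : ∀ e, 0 ≤ Y e)
    (h : ∀ e, i < e → F e ≤ Y e) :
    ∑ Q : Finset O, (if i + Q.card < m then F (i + Q.card) else 0) ≤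
      F i + (Fintype.card O + 1) ^ m * ∑ e ∈ Ioo i m, Y e := by
  rw [← add_sum_erase _ _ (mem_univ ∅), card_empty, add_zero, if_pos hi, mul_sum]
  refine add_le_add_right (le_trans (b := ∑ Q : Finset O, ∑ e ∈ Ioo i m,
    if Q.card = e - i then Y e else 0) ?_ ?_) _
  · refine (sum_le_sum fun Q hQ => ?_).trans (sum_le_sum_of_subset_of_nonneg (erase_subset ∅ _)
      fun Q _ _ => sum_nonneg fun e _ => ite_nonneg (h0 e) le_rfl)
    have h1 := card_pos.2 (nonempty_iff_ne_empty.2 (ne_of_mem_erase hQ))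
    split_ifs with k
    · refine (h _ (by omega)).trans (le_trans (le_of_eq ?_) (single_le_sum (a := i + Q.card)
        (fun e _ => ite_nonneg (h0 e) le_rfl) (mem_Ioo.2 ⟨by omega, k⟩)))
      rw [if_pos (by omega)]
    · exact sum_nonneg fun e _ => ite_nonneg (h0 e) le_rfl
  · rw [sum_comm]
    refine sum_le_sum fun e he => ?_
    rw [← sum_filter, sum_const, nsmul_eq_mul, ← powerset_univ, ← powersetCard_eq_filter,
      card_powersetCard, card_univ]
    refine mul_le_mul_of_nonneg_right ?_ (h0 e)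
    have := (Nat.choose_le_pow (Fintype.card O) (e - i)).trans ((Nat.pow_le_pow_left
      (Nat.le_succ _) _).trans (Nat.pow_le_pow_right (Nat.succ_pos _)
        ((Nat.sub_le e i).trans (mem_Ioo.1 he).2.le)))
    exact_mod_cast this

/-- `D` below the level `m` -/
def dd {R : Type} [One R] (m : ℕ) (D : R) (e : ℕ) : R := if e < m then D else 1

theorem dd_lt {R : Type} [One R] {m e : ℕ} (h : e < m) (D : R) : dd m D e = D := if_pos h

theorem dd_ge {R : Type} [One R] {m e : ℕ} (h : m ≤ e) (D : R) : dd m D e = 1 := if_neg h.not_gt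

theorem dd_cast (m : ℕ) (D : ℤ) (e : ℕ) : ((dd m D e : ℤ) : ℝ) = dd m (D : ℝ) e := by
  simp [dd]

theorem one_le_dd (m : ℕ) {D : ℝ} (h : 1 ≤ D) (e : ℕ) : 1 ≤ dd m D e := by
  unfold dd; split_ifs; exacts [h, le_rfl]

/-- a coordinate with a set of frozen vertices -/
abbrev ix (T : Tow) (O : Type) (m : ℕ) : Type :=
  {x : T.ι × Finset O // x.2.card < T.lv x.1 ∧ (m ≤ T.lv x.1 → x.2 = ∅)}

variable {T : Tow} {O : Type} [Fintype O] [DecidableEq O] {m s : ℕ} {N : ℝ}

def lx (j : ix T O m) : ℕ := T.lv j.1.1 - j.1.2.card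

def i0 (hp : ∀ a, 0 < T.lv a) (a : T.ι) : ix T O m := ⟨(a, ∅), hp a, fun _ => rfl⟩

theorem lx_lt (j : ix T O m) : lx j < m ↔ T.lv j.1.1 < m := by
  refine ⟨fun h => not_le.1 fun k => ?_, (Nat.sub_le _ _).trans_lt⟩
  rw [lx, j.2.2 k, card_empty] at h
  omega

/-- the dilated coordinates with the frozen set `Q` -/
def EQ {R : Type} [CommRing R] (D : R) (Q : Finset O) : Matrix T.ι (ix T O m) R :=
  of fun a j => if j.1.1 = a then if j.1.2 = Q then dd m D (T.lv a) else 0 else 0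

theorem EQ_mul {R : Type} [CommRing R] (D : R) (x : ix T O m → R) (j : ix T O m) :
    (EQ D j.1.2 *ᵥ x) j.1.1 = dd m D (T.lv j.1.1) * x j := by
  refine (sum_eq_single j (fun k _ e => ?_) (by simp)).trans (by simp [EQ])
  simp only [EQ, of_apply]
  split_ifs with h1 h2
  exacts [absurd (Subtype.ext (Prod.ext h1 h2)) e, zero_mul _, zero_mul _]

theorem mR_EQ (D : ℤ) (Q : Finset O) : mR (EQ (T := T) (m := m) D Q) = EQ (D : ℝ) Q := by
  ext a j
  simp [mR, EQ, apply_ite (Int.cast : ℤ → ℝ), dd_cast]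

theorem dot_EQ {R : Type} [CommRing R] (D : R) (Q : Finset O) (u : T.ι → R) (x : ix T O m → R) :
    u ⬝ᵥ (EQ D Q *ᵥ x) =
      ∑ j, (if j.1.2 = Q then dd m D (T.lv j.1.1) * u j.1.1 else 0) * x j := by
  rw [dotProduct_mulVec]
  refine sum_congr rfl fun j _ => congrArg (· * _) ?_
  simp [vecMul, dotProduct, EQ, mul_comm]

/-- the dilated Gram matrix -/
def G1 (T : Tow) (O : Type) [Fintype O] [DecidableEq O] (m : ℕ) (D : ℝ) :
    Matrix (ix T O m) (ix T O m) ℝ :=
  ∑ Q, (EQ (T := T) (m := m) D Q)ᵀ * T.G * EQ (T := T) (m := m) D Q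

theorem G1_apply (D : ℝ) (j k : ix T O m) : G1 T O m D j k = if j.1.2 = k.1.2 then
    dd m D (T.lv j.1.1) * T.G j.1.1 k.1.1 * dd m D (T.lv k.1.1) else 0 := by
  simp only [G1, Matrix.sum_apply, mul_apply, EQ, transpose_apply, of_apply, ite_mul, zero_mul,
    mul_ite, mul_zero, sum_ite_eq, mem_univ, if_true]

theorem qq_G1 (D : ℝ) (x : ix T O m → ℝ) : qq (G1 T O m D) x = ∑ Q, qq T.G (EQ D Q *ᵥ x) := by
  simp only [← qq_conj]
  simp only [qq, G1, sum_mulVec, dotProduct_sum]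

theorem le_G1 (hG : T.G.PosDef) (D : ℝ) (Q : Finset O) (x : ix T O m → ℝ) :
    qq T.G (EQ D Q *ᵥ x) ≤ qq (G1 T O m D) x := by
  rw [qq_G1]
  exact single_le_sum (f := fun Q => qq T.G (EQ D Q *ᵥ x))
    (fun _ _ => qq_nonneg hG.posSemidef _) (mem_univ Q)

theorem pd_G1 (hG : T.G.PosDef) {D : ℝ} (hD : 1 ≤ D) : (G1 T O m D).PosDef := by
  refine PosDef.of_dotProduct_mulVec_pos (IsHermitian.ext fun j k => ?_) fun x hx => ?_
  · rw [star_trivial, G1_apply, G1_apply, ← star_trivial (T.G k.1.1 j.1.1), hG.1.apply]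
    exact if_congr eq_comm (by ring) rfl
  · obtain ⟨j, hj⟩ := Function.ne_iff.1 hx
    refine (P057MA.qq_pos hG (Function.ne_iff.2 ⟨j.1.1, ?_⟩)).trans_le (le_G1 hG D j.1.2 x)
    rw [EQ_mul]
    exact mul_ne_zero (one_pos.trans_le (one_le_dd m hD _)).ne' hj

/-- the Gram matrix -/
def Gx (T : Tow) (O : Type) [Fintype O] [DecidableEq O] (m : ℕ) (D Λ : ℝ) :
    Matrix (ix T O m) (ix T O m) ℝ := sc (fun j => T.lv j.1.1) (dd m Λ) (G1 T O m D)

theorem Gx_apply (hb : ∀ a b, T.lv a ≠ T.lv b → T.G a b = 0) (D Λ : ℝ) (j k : ix T O m) :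
    Gx T O m D Λ j k = if j.1.2 = k.1.2 then
      dd m (D ^ 2 * Λ) (T.lv j.1.1) * T.G j.1.1 k.1.1 else 0 := by
  rw [Gx, sc, of_apply, G1_apply]
  by_cases e : T.lv j.1.1 = T.lv k.1.1
  · rw [← e]
    unfold dd
    split_ifs <;> ring
  · simp [hb _ _ e]

theorem bl_G1 (hb : ∀ a b, T.lv a ≠ T.lv b → T.G a b = 0) (D : ℝ) (j k : ix T O m)
    (e : T.lv j.1.1 ≠ T.lv k.1.1) : G1 T O m D j k = 0 := by simp [G1_apply, hb _ _ e]

variable (hT : T.Ok s N) {D Λ : ℝ} (hD : 1 ≤ D) (hΛ : 1 ≤ Λ)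
include hT hD hΛ

theorem pd_Gx : (Gx T O m D Λ).PosDef :=
  pd_sc (pd_G1 hT.pd hD) (bl_G1 hT.blk D) fun _ => one_pos.trans_le (one_le_dd m hΛ _)

theorem le_Gx (Q : Finset O) (x : ix T O m → ℝ) : qq T.G (EQ D Q *ᵥ x) ≤ qq (Gx T O m D Λ) x :=
  (le_G1 hT.pd D Q x).trans (le_sc (pd_G1 hT.pd hD) (bl_G1 hT.blk D) (fun _ => one_le_dd m hΛ _) x)

omit hT hD hΛ in
/-- the coordinates of level `i` with frozen set `Q` -/
def eF {i : ℕ} (h0 : 0 < i) {Q : Finset O} (h : i + Q.card < m) :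
    {a // T.lv a = i + Q.card} ≃ {x : {j : ix T O m // lx j = i} // x.1.1.2 = Q} where
  toFun a := ⟨⟨⟨(a.1, Q), by have := a.2; dsimp only; omega, fun k => by have := a.2; dsimp only at k; omega⟩,
    by have := a.2; simp only [lx]; omega⟩, rfl⟩
  invFun x := ⟨x.1.1.1.1, by
    have h1 := x.1.2; have h2 := x.1.1.2.1; rw [lx, x.2] at h1; rw [x.2] at h2; omega⟩
  left_inv _ := rfl
  right_inv x := Subtype.ext (Subtype.ext (Subtype.ext (Prod.ext rfl x.2.symm)))

omit hT hD hΛ in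
theorem emp {i : ℕ} (hi : i < m) {Q : Finset O} (h : ¬(0 < i ∧ i + Q.card < m)) :
    IsEmpty {x : {j : ix T O m // lx j = i} // x.1.1.2 = Q} := ⟨fun x => by
  have h1 := x.1.2
  have h2 := x.1.1.2.1
  have h3 := (lx_lt x.1.1).1 (h1.trans_lt hi)
  rw [lx, x.2] at h1; rw [x.2] at h2
  omega⟩

omit hT hD hΛ in
theorem dm_card (e : ℕ) : T.dm e = Fintype.card {a // T.lv a = e} := by
  rw [Tow.dm, Fintype.card_subtype]

omit hT hD hΛ in
theorem card_lx {i : ℕ} (hi : i < m) (h0 : 0 < i) : (Fintype.card {j : ix T O m // lx j = i} : ℝ) =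
    ∑ Q : Finset O, if i + Q.card < m then T.dm (i + Q.card) else 0 := by
  rw [← Fintype.card_congr (Equiv.sigmaFiberEquiv fun x : {j : ix T O m // lx j = i} => x.1.1.2),
    Fintype.card_sigma, Nat.cast_sum]
  refine sum_congr rfl fun Q _ => ?_
  split_ifs with k
  · rw [dm_card, Fintype.card_congr (eF h0 k)]
  · have := emp (T := T) hi fun c : 0 < i ∧ i + Q.card < m => k c.2
    rw [Fintype.card_eq_zero, Nat.cast_zero]

theorem logdet {i : ℕ} (hi : i < m) (h0 : 0 < i) :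
    Real.log (bk (Gx T O m D Λ) fun j => lx j = i).det =
      (∑ Q : Finset O, if i + Q.card < m then
        Real.log (bk T.G fun a => T.lv a = i + Q.card).det else 0) +
      Fintype.card {j : ix T O m // lx j = i} * Real.log (D ^ 2 * Λ) := by
  have hp := posDef_bk (pd_Gx (O := O) (m := m) hT hD hΛ) fun j => lx j = i
  rw [card_lx hi h0, sum_mul, ← sum_add_distrib, det_fib (M := bk (Gx T O m D Λ) fun j => lx j = i) (fun x => x.1.1.2)
    fun j k e => (Gx_apply hT.blk D Λ j.1 k.1).trans (if_neg e), Real.log_prod fun Q _ =>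
      (posDef_bk hp _).det_pos.ne']
  refine sum_congr rfl fun Q _ => ?_
  split_ifs with k
  · have h1 : (bk (bk (Gx T O m D Λ) fun j => lx j = i) fun x => x.1.1.2 = Q).submatrix
        (eF h0 k) (eF h0 k) = (D ^ 2 * Λ) • bk T.G fun a => T.lv a = i + Q.card := by
      ext a b
      refine (Gx_apply hT.blk D Λ _ _).trans ((if_pos rfl).trans ?_)
      exact congrArg (· * _) (dd_lt (a.2.trans_lt k) _)
    rw [← det_submatrix_equiv_self (eF h0 k), h1, det_smul, Real.log_mul (by positivity)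
      (posDef_bk hT.pd _).det_pos.ne', Real.log_pow, dm_card, add_comm]
  · have := emp (T := T) hi fun c : 0 < i ∧ i + Q.card < m => k c.2
    simp

end

end Vale.Agent.P057FC
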