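import Vale.Agent.P057FC.Tz
import Vale.Agent.P057SM.Rfl
import Vale.Agent.P057FC.Ex
import Vale.Agent.P057FC.Tw
import Vale.Agent.P057CU.Pull

/-! The live labels of a frozen cube system on a coset form a canonical system. -/

set_option linter.all false

open Matrix Finset MvPolynomial
open Vale.Agent.P267.H775 Vale.Agent.P057G Vale.Agent.P057PC Vale.Agent.P057TP Vale.Agent.P057ST
open Vale.Agent.P057AD (Pre flt fltS)
open Vale.Agent.P057GH (sb fsb)

namespace Vale.Agent.P057FC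

noncomputable section

open Classical

variable {T : Tow} {K W O : Type} [Fintype W] [DecidableEq W] [Fintype O] [DecidableEq O]
  {cl : W → K} {m s : ℕ} {N : ℝ}

abbrev tg (q : ix T O m → MvPolynomial (ix T O m) ℝ) (G : Matrix (ix T O m) (ix T O m) ℝ)
    (el : ix T O m → ℤ) : Tow := ⟨ix T O m, lx, q, G, el⟩

section lab

variable {q : ix T O m → MvPolynomial (ix T O m) ℝ} {G : Matrix (ix T O m) (ix T O m) ℝ}
  {el : ix T O m → ℤ}

theorem inj_disj {A : Finset W} (Q : Finset O) :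
    Set.InjOn (cO cl O) (A.disjSum Q : Finset _) ↔ Set.InjOn cl A := by
  refine ⟨fun h a ha b hb e => Sum.inl_injective (h (by simpa using ha) (by simpa using hb)
    (congrArg Sum.inl e)), fun h => ?_⟩
  rintro (a | a) ha (b | b) hb e
  · exact congrArg _ (h (by simpa using ha) (by simpa using hb) (Sum.inl_injective e))
  · exact absurd e Sum.inl_ne_inr
  · exact absurd e Sum.inr_ne_inl
  · exact congrArg _ (Sum.inr_injective e)

/-- the labels of the new coordinates are the live labels -/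
def eL : Lb (tg q G el) cl Unit m ≃ Ll T cl O m where
  toFun l := ⟨⟨(l.cd.1.1, l.fc.disjSum l.cd.1.2, l.bs), (lx_lt _).1 l.2.1, (inj_disj _).2 l.2.2.1, by
      obtain ⟨⟨a, A, o⟩, h1, h2, h3⟩ := l
      have := a.2.1
      cases o <;> simp only [Lb.cd, Lb.fc, Lb.bs, Option.elim, card_disjSum, lx] at h3 ⊢ <;> omega⟩, by
    obtain ⟨⟨a, A, o⟩, h1, h2, h3⟩ := l
    have := a.2.1
    cases o with
    | some t => exact Or.inl (Option.some_ne_none t)
    | none =>
      refine Or.inr ?_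
      simp only [Lb.cd, Lb.fc, Option.elim, lx, toLeft_disjSum, ← card_pos] at h3 ⊢
      omega⟩
  invFun k := ⟨(⟨(k.1.cd, k.1.fc.toRight), by
      have h1 := card_toLeft_add_card_toRight (u := k.1.fc)
      have h2 := k.1.card_le
      rcases k.2 with h | h
      · obtain ⟨t, ht⟩ := Option.ne_none_iff_exists'.1 h
        have := k.1.card_lt ht
        dsimp only; omega
      · have := card_pos.2 h
        dsimp only; omega, fun h => absurd k.1.2.1 h.not_gt⟩, k.1.fc.toLeft, k.1.bs),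
    (lx_lt _).2 k.1.2.1, (inj_disj k.1.fc.toRight).1
      (by rw [toLeft_disjSum_toRight]; exact k.1.2.2.1), by
      obtain ⟨⟨⟨a, A, o⟩, h1, h2, h3⟩, h4⟩ := k
      have h1 := card_toLeft_add_card_toRight (u := A)
      cases o <;> simp only [Lb.cd, Lb.fc, Lb.bs, Option.elim, lx] at h3 ⊢ <;> omega⟩
  left_inv l := Lb.ext' (Subtype.ext (Prod.ext rfl toRight_disjSum)) toLeft_disjSum rfl
  right_inv k := Subtype.ext (Lb.ext' rfl toLeft_disjSum_toRight rfl)

theorem pt_xp {R : Type} [CommRing R] (r : Lp T cl O m → R) (D : R)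
    (z : Lb (tg q G el) cl Unit m → R) (o : Option Unit) (B : Finset W) (Q : Finset O) (b : T.ι) :
    pt (xp r D (z ∘ eL.symm)) o (B.disjSum Q) b = pt r o (B.disjSum Q) b +
      ∑ j : ix T O m, if j.1.1 = b ∧ j.1.2 ⊆ Q then dd m D (T.lv b) * pt z o B j else 0 := by
  by_cases hb : m ≤ T.lv b
  · rw [P057NA.pt_high _ _ _ hb, P057NA.pt_high _ _ _ hb, zero_add, sum_eq_zero fun j _ => ?_]
    split_ifs with k
    exacts [by rw [P057NA.pt_high z o B (a := j) (not_lt.1 fun c => hb.not_gt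
      (k.1 ▸ (lx_lt j).1 c)), mul_zero], rfl]
  rw [dd_lt (not_le.1 hb)]
  have h1 : ∀ k : Lp T cl O m, ∀ (c : Prop) [Decidable c], (if c then xp r D (z ∘ eL.symm) k else 0) =
      (if c then r k else 0) + if h : Live k then if c then D * z (eL.symm ⟨k, h⟩) else 0 else 0 :=
    fun k c _ => by unfold xp; split_ifs <;> simp
  simp only [pt, h1, sum_add_distrib]
  congr 1
  rw [← Fintype.sum_subtype_add_sum_subtype Live, sum_eq_zero (s := univ)
    (f := fun x : {k // ¬Live k} => _) fun x _ => dif_neg x.2, add_zero,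
    ← (eL (q := q) (G := G) (el := el)).sum_comp]
  have h2 : ∀ (j : ix T O m) (c : Prop) [Decidable c] (F : Lb (tg q G el) cl Unit m → R),
      (if c then D * ∑ l, F l else 0) = ∑ l, if c then D * F l else 0 := fun j c _ F => by
    split_ifs <;> simp [mul_sum]
  rw [sum_congr rfl fun j _ => h2 j _ _, sum_comm]
  refine sum_congr rfl fun l _ => ?_
  rw [dif_pos (eL l).2, sum_eq_single l.cd (fun j _ e => by simp [e.symm]) (by simp)]
  simp only [Subtype.coe_eta, Equiv.symm_apply_apply, true_and, mul_ite, mul_zero, ← ite_and]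
  refine if_congr ?_ rfl rfl
  change l.cd.1.1 = b ∧ l.fc.disjSum l.cd.1.2 ⊆ _ ∧ (l.bs = none ∨ l.bs = o) ↔ _
  rw [disjSum_subset, toLeft_disjSum, toRight_disjSum]
  tauto

end lab

/-- the old coordinates in terms of the new ones -/
def psi (r : Lp T cl O m → ℝ) (D : ℝ) : Fam ℝ T.ι (ix T O m) (W ⊕ O) Unit :=
  ⟨fun o b => C (lift r o b) + ∑ j : ix T O m, if j.1.1 = b then
    C (C (dd m D (T.lv b)) * mon ((∅ : Finset W).disjSum j.1.2) j.1.2.card) * X j else 0⟩

variable {r u : Lp T cl O m → ℝ} {D Λ : ℝ}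

theorem ok_psi : (psi r D).Ok T.lv lx := by
  refine ⟨fun o b => JH.add (JH.C (lift_hom r o b)) (JH.sum _ fun j _ => ?_), fun t b => ?_⟩
  · split_ifs with k
    · have := (JH.C ((mon_hom (R := ℝ) (A := (∅ : Finset W).disjSum j.1.2) (d := j.1.2.card)
        (by simp)).C_mul (dd m D (T.lv b)))).mul (JH.X lx j)
      rwa [lx, Nat.add_sub_cancel' j.2.1.le, k] at this
    · exact JH.zero _ _
  · simp only [psi, map_add, MvPolynomial.map_C, kt_lift r (some t)]

theorem at_psi (o : Option Unit) (B : Finset W) (Q : Finset O) (b : T.ι) (y : ix T O m → ℝ) :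
    eval y ((psi r D).at' o (B.disjSum Q) b) = pt r o (B.disjSum Q) b +
      ∑ j : ix T O m, if j.1.1 = b ∧ j.1.2 ⊆ Q then dd m D (T.lv b) * y j else 0 := by
  simp only [Fam.at', psi, map_add, MvPolynomial.map_C, eval_C, evA_lift, map_sum]
  refine congrArg _ (sum_congr rfl fun j _ => ?_)
  by_cases k : j.1.1 = b
  · simp only [k, if_true, map_mul, MvPolynomial.map_C, evA_C, evA_mon, disjSum_subset, eval_C,
      toLeft_disjSum, toRight_disjSum, empty_subset, true_and, map_X, eval_X, mul_ite, ite_mul,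
      mul_one, mul_zero, zero_mul]
  · simp [k]

theorem top_psi (hp : ∀ a, 0 < T.lv a) (b : T.ι) (y : ix T O m → ℝ) :
    eval y ((psi r D).top b) = dd m D (T.lv b) * y (i0 hp b) := by
  simp only [Fam.top, psi, map_add, MvPolynomial.map_C, eval_C, constantCoeff_lift hp, map_sum,
    zero_add]
  rw [sum_eq_single (i0 hp b) (fun j _ e => ?_) (by simp)]
  · simp [i0, mon]
  · split_ifs with k
    · obtain ⟨v, hv⟩ := nonempty_iff_ne_empty.2 fun c => e (Subtype.ext (Prod.ext k c))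
      simp only [map_mul, MvPolynomial.map_C, mon, map_prod, constantCoeff_X]
      rw [prod_eq_zero (i := Sum.inr v) (by simpa using hv) (by simp)]
      simp
    · simp

theorem vars_psi {o : Option Unit} {b : T.ι} {j : ix T O m} (h : j ∈ ((psi r D).fn o b).vars) :
    j.1.1 = b := by
  rcases mem_union.1 (vars_add_subset _ _ h) with h | h
  · simp at h
  · obtain ⟨k, -, h⟩ := mem_biUnion.1 (vars_sum_subset _ _ h)
    split_ifs at h with e
    · have := vars_mul _ _ h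
      rw [vars_C, vars_X, empty_union, mem_singleton] at this
      exact this ▸ e
    · simp at h

/-- frozen vertices are sent to the live vertices that carry them -/
def gm (μ : O → Option (Option W)) : W ⊕ O → Lam ℝ W :=
  Sum.elim (fun v => X (some v)) fun o => (μ o).elim 0 X

theorem evA_gm (μ : O → Option (Option W)) (A : Finset W) (w : W ⊕ O) :
    evA A (gm μ w) = if w ∈ upz μ A then 1 else 0 := by
  rcases w with v | o
  · simp [gm, upz, evA_some]
  · rcases h : μ o with _ | _ | v <;> simp [gm, upz, h, evA_some, evA_none]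

variable (Z : Sys T (W ⊕ O) Unit) (μ : O → Option (Option W)) (r u D)

/-- the polynomials of the new coordinates -/
def fx : Fam ℝ (ix T O m) (ix T O m) W Unit :=
  ⟨fun o j => if m ≤ T.lv j.1.1 then (fsb (Z.fam.cmr (psi r D)) (gm μ) id).fn o j.1.1 else
    C (C D⁻¹) * exP j.1.2 ((Z.fam.cmr (psi r D)).fn o j.1.1 + C (lift u o j.1.1))⟩

variable {Z μ r u D}

theorem ok_fx (hZ : Z.Ok) : (fx r u D Z μ).Ok lx lx := by
  have h1 := hZ.fam.cmr (ok_psi (r := r) (D := D))
  have h2 := P057SM.ok_fsb' h1 (g := gm μ) (fun w => by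
    rcases w with v | o
    · exact isHomogeneous_X _ _
    · cases h : μ o <;> simp [gm, h, isHomogeneous_X, isHomogeneous_zero]) id
  refine ⟨fun o j => ?_, fun t j => ?_⟩
  · change JH lx _ _
    unfold fx
    dsimp only
    split_ifs with k
    · rw [lx, j.2.2 k]
      exact h2.hom o _
    · exact P057CU.JH_cmul _ fun _ => JH_exP _ (JH.add (h1.hom o _) (JH.C (lift_hom u o _)))
  · unfold fx
    dsimp only
    split_ifs with k
    · exact h2.pure t _
    · rw [map_mul, map_mul, kt_exP _ (p' := _ + C (lift u none j.1.1))]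
      simp only [map_add, MvPolynomial.map_C, h1.pure, kt_lift u (some t)]

theorem vars_fx (hT : T.Ok s N) (hZ : Z.Ok) {o : Option Unit} {j k : ix T O m}
    (h : k ∈ ((fx r u D Z μ).fn o j).vars) : T.lv k.1.1 < T.lv j.1.1 := by
  have h1 : ∀ o, k ∈ ((Z.fam.cmr (psi r D)).fn o j.1.1).vars → T.lv k.1.1 < T.lv j.1.1 :=
    fun o h => by
      obtain ⟨b, hb, e⟩ := mem_biUnion.1 (vars_bind₁ _ _ h)
      exact vars_psi e ▸ P057GH.vars_low hT hZ o _ b hb
  unfold fx at h
  dsimp only at h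
  split_ifs at h with e
  · exact h1 _ (vars_map _ _ h)
  · have h2 := vars_mul _ _ h
    rw [vars_C, empty_union] at h2
    have h3 := vars_add_subset _ _ (vars_exP _ h2)
    rw [vars_C, union_empty] at h3
    exact h1 _ h3

theorem top_fx (hT : T.Ok s N) (hZ : Z.Ok) (hD : D ≠ 0) (a : T.ι) (y : ix T O m → ℝ) :
    dd m D (T.lv a) * eval y ((fx r u D Z μ).top (i0 hT.pos a)) =
      eval (fun b => dd m D (T.lv b) * y (i0 hT.pos b)) (T.q a) := by
  have h1 : eval y ((Z.fam.cmr (psi r D)).top a) =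
      eval (fun b => dd m D (T.lv b) * y (i0 hT.pos b)) (T.q a) := by
    simp only [Fam.top_cmr, eval_bind, top_psi hT.pos, hZ.top]
  rw [← h1]
  by_cases k : m ≤ T.lv a
  · rw [dd_ge k, one_mul, ← P057GH.top_fsb _ (g := gm μ) (fun w => by
      rcases w with v | o
      · simp [gm]
      · cases h : μ o <;> simp [gm, h]) id]
    exact congrArg (fun p => eval y (MvPolynomial.map constantCoeff p)) (if_pos k)
  · have h2 : (fx r u D Z μ).fn none (i0 hT.pos a) = C (C D⁻¹) *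
        exP ∅ ((Z.fam.cmr (psi r D)).fn none a + C (lift u none a)) := if_neg k
    rw [dd_lt (not_le.1 k), Fam.top, h2, map_mul, cc_exP]
    simp [constantCoeff_lift hT.pos, Fam.top, hD]

theorem fx_hi {j : ix T O m} (h : m ≤ T.lv j.1.1) (o : Option Unit) (A : Finset W) :
    (fx r u D Z μ).at' o A j = (Z.fam.cmr (psi r D)).at' o (upz μ A) j.1.1 := by
  have := P057GH.at_fsb (Z.fam.cmr (psi r D)) id o (evA_gm μ A) j.1.1
  rw [Option.map_id] at this
  exact (congrArg (MvPolynomial.map (evA A)) (if_pos h)).trans this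

variable {q : ix T O m → MvPolynomial (ix T O m) ℝ} {G : Matrix (ix T O m) (ix T O m) ℝ}
  {el : ix T O m → ℤ}

theorem alt_fx (hZ : Z.Ok) (z : Lb (tg q G el) cl Unit m → ℝ) (l : Lb (tg q G el) cl Unit m) :
    (fx r u D Z μ).alt (pt z) l.bs l.fc l.cd =
      D⁻¹ * (Z.pr (cO cl O) m (xp r D (z ∘ eL.symm)) (eL l).1 + u (eL l).1) := by
  have h0 := (lx_lt _).1 l.2.1
  have h1 : (fx r u D Z μ).fn l.bs l.cd = C (C D⁻¹) * exP l.cd.1.2
    ((Z.fam.cmr (psi r D)).fn l.bs l.cd.1.1 + C (lift u l.bs l.cd.1.1)) := if_neg h0.not_ge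
  rw [← dlt_pt u (eL l).1]
  refine Eq.trans ?_ (congrArg _ ((dlt_disj _ l.fc l.cd.1.2).symm.trans (dlt_add _ _ _)))
  rw [← dlt_mul]
  refine dlt_congr (g := fun B => eval (pt z l.bs B) ((fx r u D Z μ).at' l.bs B l.cd)) fun B _ => ?_
  rw [Fam.at', h1, map_mul, map_mul, MvPolynomial.map_C, eval_C, evA_C, eval_exP]
  refine congrArg _ (dlt_congr fun E _ => ?_)
  rw [map_add, map_add, MvPolynomial.map_C, eval_C, evA_lift, ← Fam.at', Fam.at_cmr, eval_bind]
  simp only [at_psi, ← pt_xp]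
  rfl

/-- the tower before the linear terms are removed -/
abbrev tx (r u : Lp T cl O m → ℝ) (D : ℤ) (Λ : ℝ) (Z : Sys T (W ⊕ O) Unit) (μ : O → Option (Option W)) :
    Tow := tg (fx r u D Z μ).top (Gx T O m D Λ) fun j => dd m D (T.lv j.1.1) * T.el j.1.1

variable {D : ℤ}

theorem pre_tx (hT : T.Ok s N) (hZ : Z.Ok) (hD : (1 : ℝ) ≤ D) (hΛ : 1 ≤ Λ) :
    Pre (tx r u D Λ Z μ) (fun j => T.lv j.1.1 - 1) s := by
  refine ⟨fun j => Nat.sub_pos_of_lt j.2.1, fun j => (Nat.sub_le _ _).trans (hT.le _),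
    (ok_fx hZ).top_hom, fun j k _ h => ?_, pd_Gx hT hD hΛ, fun j k e => ?_, fun j e => ?_⟩
  · have := vars_fx hT hZ (vars_map _ _ h)
    have := hT.pos k.1.1
    omega
  · refine (Gx_apply hT.blk _ _ j k).trans (ite_eq_right_iff.2 fun c => ?_)
    rw [hT.blk _ _ fun d => e (by simp only [lx, c, d]), mul_zero]
  · refine mul_eq_zero_of_right _ (hT.el1 _ fun c => e ?_)
    have := j.2.1
    change T.lv j.1.1 - j.1.2.card = 1
    omega

theorem el_EQ (hT : T.Ok s N) {R : Type} [CommRing R] (D : R) (f : ℤ →+* R) (x : ix T O m → R) :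
    (fun a => f (T.el a)) ⬝ᵥ (EQ D ∅ *ᵥ x) =
      (fun j => dd m D (T.lv j.1.1) * f (T.el j.1.1)) ⬝ᵥ x := by
  rw [dot_EQ]
  refine sum_congr rfl fun j _ => congrArg (· * _) (ite_eq_left_iff.2 fun c => ?_)
  have := card_pos.2 (nonempty_iff_ne_empty.2 c)
  have := j.2.1
  rw [hT.el1 _ (by omega), map_zero, mul_zero]

theorem ok_tx (hT : T.Ok s N) (hZ : Z.Ok) (hD : (1 : ℝ) ≤ D) (hΛ : 1 ≤ Λ) :
    (flt (tx r u D Λ Z μ)).Ok s N := by
  refine (pre_tx hT hZ hD hΛ).ok (fun j k e => ?_) (fun j e => ?_) (fun z hz he => ?_) fun x => ?_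
  · refine (Gx_apply hT.blk _ _ j k).trans (ite_eq_right_iff.2 fun c => ?_)
    rw [hT.blk _ _ fun d => e (by simp only [d]), mul_zero]
  · exact mul_eq_zero_of_right _ (hT.el1 _ fun c => e (by simp only [c]))
  · obtain ⟨j, hj⟩ := Function.ne_iff.1 hz
    refine le_trans ?_ (le_Gx hT hD hΛ j.1.2 _)
    rw [← mR_EQ, ← toR_mulVec]
    refine hT.sep _ (Function.ne_iff.2 ⟨j.1.1, ?_⟩) ?_
    · rw [EQ_mul]
      refine mul_ne_zero (fun c => ?_) hj
      have := one_le_dd m hD (T.lv j.1.1)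
      rw [← dd_cast, c] at this
      norm_num at this
    · by_cases c : j.1.2 = ∅
      · rw [c]
        exact (el_EQ hT D (RingHom.id ℤ) z).trans he
      · rw [dot_EQ]
        refine sum_eq_zero fun k _ => mul_eq_zero_of_left (ite_eq_right_iff.2 fun d => ?_) _
        have h1 := card_pos.2 (nonempty_iff_ne_empty.2 c)
        have h2 := k.2.1
        rw [d] at h2
        exact mul_eq_zero_of_right _ (hT.el1 _ (by omega))
  · refine le_trans (le_of_eq (congrArg (· ^ 2) ?_)) ((hT.elN (EQ (D : ℝ) ∅ *ᵥ x)).trans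
      (mul_le_mul_of_nonneg_left (le_Gx hT hD hΛ ∅ x) (sq_nonneg N)))
    refine Eq.trans ?_ (el_EQ hT (D : ℝ) (Int.castRingHom ℝ) x).symm
    exact congrArg (· ⬝ᵥ x) (funext fun j => by simp [dd_cast])

/-- the upper levels -/
def eU (hp : ∀ a, 0 < T.lv a) : {a // m ≤ T.lv a} ≃ {j : ix T O m // m ≤ lx j} where
  toFun a := ⟨i0 hp a.1, a.2⟩
  invFun j := ⟨j.1.1.1, j.2.trans (Nat.sub_le _ _)⟩
  left_inv _ := rfl
  right_inv j := Subtype.ext (Subtype.ext (Prod.ext rfl
    (j.1.2.2 (j.2.trans (Nat.sub_le _ _))).symm))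

theorem EQ0 {R : Type} [CommRing R] (hp : ∀ a, 0 < T.lv a) (D : R) (x : ix T O m → R) (a : T.ι) :
    (EQ D ∅ *ᵥ x) a = dd m D (T.lv a) * x (i0 hp a) := EQ_mul D x (i0 hp a)

theorem up_tx (hT : T.Ok s N) (hZ : Z.Ok) (hD : (1 : ℝ) ≤ D) (hΛ : 1 ≤ Λ) :
    Up m (flt (tx r u D Λ Z μ)) T := by
  have h := pre_tx (r := r) (u := u) (μ := μ) hT hZ hD hΛ
  have hD0 : (D : ℝ) ≠ 0 := (one_pos.trans_le hD).ne'
  have e : ∀ y, ap (fun a => (C (dd m D (T.lv a)) * X (i0 hT.pos a) :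
      MvPolynomial (ix T O m) ℤ)) y = fun a => dd m (D : ℝ) (T.lv a) * y (i0 hT.pos a) :=
    fun y => funext fun a => by simp [ap, dd_cast]
  have hl : ∀ (a : {a // m ≤ T.lv a}) c, (tx r u D Λ Z μ).lin lx (tx r u D Λ Z μ).q c
      (i0 hT.pos a.1) = 0 := fun a c => ite_eq_right_iff.2 fun k => by_contra fun d => by
    have h1 := vars_fx hT hZ (vars_map _ _ ((mem_vars _).2 ⟨_, mem_support_iff.2 d, by simp⟩ :
      i0 hT.pos a.1 ∈ ((fx r u D Z μ).top c).vars))
    exact absurd (k.trans_le (Nat.sub_le _ _)) (by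
      have h2 : T.lv a = lx c := k
      have h3 := c.2.2 (a.2.trans (h2.trans_le (Nat.sub_le _ _)))
      simp only [lx, h3, card_empty, i0] at h1 h2
      omega)
  refine ⟨fun a => C (dd m D (T.lv a)) * X (i0 hT.pos a), eU hT.pos, ⟨fun a _ =>
    (isWeightedHomogeneous_X ℤ lx (i0 hT.pos a)).C_mul _, fun y hy i hi => ?_, fun _ y => ?_⟩,
    fun _ => rfl, fun a => by simp only [dd_ge a.2, C_1, one_mul]; rfl, fun a y => ?_, fun a b => ?_,
    fun a => (congrArg (· * _) (dd_ge a.2 _)).trans (one_mul _)⟩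
  · refine le_trans (le_of_eq (congrArg (qq T.G) (funext fun a => ?_)))
      ((le_Gx hT hD hΛ ∅ _).trans (h.ball _ _ |>.1 hy i hi))
    rw [EQ0 hT.pos, mul_ite, mul_zero, e]
    exact if_congr Iff.rfl (by rw [Tow.ps, Tow.ps, mul_sub, top_fx hT hZ hD0]) rfl
  · rw [e, ← funext (EQ0 hT.pos (D : ℝ) y)]
    refine Eq.trans ?_ (el_EQ hT (D : ℝ) (Int.castRingHom ℝ) y).symm
    exact congrArg (· ⬝ᵥ y) (funext fun j => by simp [dd_cast])
  · rw [e, ← top_fx (r := r) (u := u) (μ := μ) hT hZ hD0, dd_ge a.2, one_mul]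
    refine congrArg _ (h.q_eq fun j hj => ?_)
    exact ((Nat.sub_le _ _).trans_lt (vars_fx hT hZ (vars_map _ _ hj))).ne
  · refine (P057AD.G_flt (hl a) (hl b)).trans ((Gx_apply hT.blk _ _ _ _).trans ?_)
    exact (if_pos rfl).trans ((congrArg (· * _) (dd_ge a.2 _)).trans (one_mul _))

theorem full_hi {S : Type} [Fintype S] (z : Lb T cl S m → ℤ) (c : Finset W) (t : S)
    (y : {a // m ≤ T.lv a} → ℤ) {a : T.ι} (h : m ≤ T.lv a) : Sys.full cl m z c t y a = y ⟨a, h⟩ :=
  dif_pos h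

theorem full_lo {S : Type} [Fintype S] (z : Lb T cl S m → ℤ) (c : Finset W) (t : S)
    (y : {a // m ≤ T.lv a} → ℤ) {a : T.ι} (h : ¬m ≤ T.lv a) :
    Sys.full cl m z c t y a = pt z (some t) c a := dif_neg h

/-- the system before the linear terms are removed -/
def zx (r : Lp T cl O m → ℤ) (u : Lp T cl O m → ℝ) (D : ℤ) (Λ : ℝ) (Z : Sys T (W ⊕ O) Unit)
    (μ : O → Option (Option W)) : Sys (tx (toR r) u D Λ Z μ) W Unit :=
  ⟨fx (toR r) u D Z μ, fun A t => Z.off (upz μ A) t + T.el ⬝ᵥ pt r (some t) (upz μ A)⟩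

theorem F_zx (hT : T.Ok s N) {r : Lp T cl O m → ℤ} (f : ℤ → ℝ)
    (z : Lb (tx (toR r) u D Λ Z μ) cl Unit m → ℤ) (A : Finset W) :
    (zx r u D Λ Z μ).F cl m f z A () = Z.F (cO cl O) m f (xp r D (z ∘ eL.symm)) (upz μ A) () := by
  unfold Sys.F
  rw [← (Equiv.arrowCongr (eU (O := O) hT.pos) (Equiv.refl ℤ)).tsum_eq]
  refine tsum_congr fun y => ?_
  have h2 : (Equiv.arrowCongr (eU (O := O) hT.pos) (Equiv.refl ℤ)) y = y ∘ (eU hT.pos).symm := rfl
  have h3 : ∀ b, Sys.full (cO cl O) m (xp r D (z ∘ eL.symm)) (upz μ A) () y b =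
      pt r (some ()) (upz μ A) b + ∑ j : ix T O m, if j.1.1 = b ∧ j.1.2 ⊆ (upz μ A).toRight then
        dd m D (T.lv b) * Sys.full cl m z A () (y ∘ (eU hT.pos).symm) j else 0 := fun b => by
    by_cases k : m ≤ T.lv b
    · rw [P057NA.pt_high _ _ _ k, zero_add, sum_eq_single (i0 hT.pos b) (fun j _ e => if_neg
        fun c => e (Subtype.ext (Prod.ext c.1 (j.2.2 (c.1 ▸ k))))) (by simp),
        if_pos ⟨rfl, empty_subset _⟩, dd_ge k, one_mul]
      exact (dif_pos k).trans (full_hi z A () (y ∘ (eU hT.pos).symm) (a := i0 hT.pos b) k).symm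
    · refine (dif_neg k).trans ((pt_xp r D z _ A _ b).trans (congrArg _ (sum_congr rfl fun j _ =>
        ?_)))
      rw [upz, toRight_disjSum]
      split_ifs with c
      exacts [congrArg _ (full_lo z A () _ fun d : m ≤ lx j =>
        k (c.1 ▸ d.trans (Nat.sub_le _ _))).symm, rfl]
  have h4 : bk T.G (fun a => m ≤ T.lv a) =
      (bk (Gx T O m D Λ) fun j => m ≤ lx j).submatrix (eU hT.pos) (eU hT.pos) := by
    ext a b
    exact ((Gx_apply hT.blk _ _ (i0 hT.pos a.1) (i0 hT.pos b.1)).trans ((if_pos rfl).trans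
      ((congrArg (· * T.G a b) (dd_ge a.2 _)).trans (one_mul _)))).symm
  rw [h2, h4, ← ng_submatrix _ (eU hT.pos)]
  congr 2
  · funext a
    refine congrArg₂ (· - ·) rfl ?_
    refine (congrArg _ (fx_hi (j := i0 hT.pos a.1) a.2 _ A)).trans ?_
    rw [Fam.at_cmr, eval_bind]
    refine congrArg (eval · _) (funext fun b => ?_)
    rw [toR_apply, h3, upz, at_psi, toRight_disjSum]
    simp [apply_ite (Int.cast : ℤ → ℝ), dd_cast, cast_pt]
    rfl
  · refine (add_assoc _ _ _).trans (congrArg _ ?_)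
    rw [funext h3]
    refine (congrArg _ (el_EQ hT D (RingHom.id ℤ) _).symm).trans ?_
    refine (dotProduct_add _ _ _).symm.trans (sum_congr rfl fun a _ => ?_)
    by_cases k : T.lv a = 1
    · refine congrArg (_ * ·) (congrArg (pt r (some ()) (upz μ A) a + ·)
        (sum_congr rfl fun j _ => ?_))
      by_cases c : j.1.1 = a
      · have h5 : j.1.2 = ∅ := card_eq_zero.1 (by have := j.2.1; rw [c] at this; omega)
        simp [EQ, c, h5]
      · simp [EQ, c]
    · simp [hT.el1 a k]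

theorem gam_tg (hT : T.Ok s N) (D Λ : ℝ) : Gam (tg q (Gx T O m D Λ) el) cl Unit m =
    ((D ^ 2 * Λ) • bk (Gam T (cO cl O) Unit m) Live).submatrix eL eL := by
  ext l l'
  have h1 := Gx_apply hT.blk D Λ l.cd l'.cd
  rw [dd_lt ((lx_lt l.cd).1 l.2.1)] at h1
  by_cases k : l.fc.disjSum l.cd.1.2 = l'.fc.disjSum l'.cd.1.2 ∧ l.bs = l'.bs
  · have k1 := disjSum_inj.1 k.1
    exact ((if_pos ⟨k1.1, k.2⟩).trans (h1.trans (if_pos k1.2))).trans
      (congrArg (D ^ 2 * Λ * ·) (if_pos k)).symm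
  · refine Eq.trans ?_ ((congrArg (D ^ 2 * Λ * ·) (if_neg k)).trans (mul_zero _)).symm
    exact P057NA.Gam_zero fun a b => h1.trans (if_neg fun c => k ⟨disjSum_inj.2 ⟨a, c⟩, b⟩)

theorem ps_zx (hZ : Z.Ok) (r : Lp T cl O m → ℤ) (c : Ll T cl O m → ℝ) (D : ℕ)
    (hu : u = fun k => (if h : Live k then c ⟨k, h⟩ else 0) - r k)
    (z : Lb (tx (toR r) u D Λ Z μ) cl Unit m → ℤ) :
    (zx r u D Λ Z μ).ps cl m z = pz Z r c D (toR z ∘ eL.symm) ∘ eL := funext fun l => by
  refine (congrArg (_ - ·) (alt_fx hZ (toR z) l)).trans ?_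
  simp only [pz, hu, Function.comp, Equiv.symm_apply_apply, dif_pos (eL l).2, Int.cast_natCast,
    div_eq_inv_mul, add_sub_assoc]

/-- the live labels of a frozen cube system on a coset are the labels of a canonical system -/
def CAN' : Prop :=
  ∀ (s : ℕ) (N : ℝ) (T : Tow) (C W O : Type) [Fintype W] [DecidableEq W] [Fintype O]
    [DecidableEq O] (cl : W → C) (m : ℕ) (Z : Sys T (W ⊕ O) Unit) (μ : O → Option (Option W))
    (r : Lp T cl O m → ℤ) (c : Ll T cl O m → ℝ) (D : ℕ) (Λ : ℝ) (Y : ℕ → ℝ), T.Ok s N → Z.Ok →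
    1 ≤ D → 1 ≤ Λ → (∀ j, 0 ≤ Y j ∧ T.yy N j ≤ Y j) →
    ∃ (T' : Tow) (Z' : Sys T' W Unit) (e : Lb T' cl Unit m ≃ Ll T cl O m), T'.Ok s N ∧ Z'.Ok ∧
      Up m T' T ∧ (∀ i, i < m →
        T'.dm i ≤ T.dm i + (Fintype.card O + 1) ^ m * ∑ j ∈ Ioo i m, T.dm j ∧
        T'.yy N i ≤ T.yy N i + (Fintype.card O + 1) ^ m * ∑ j ∈ Ioo i m, Y j +
          T'.dm i * Real.log ((D : ℝ) ^ 2 * Λ) / 2) ∧
      (∀ l, (e l).1.bs = l.bs ∧ (e l).1.fc.toLeft = l.fc ∧
        T'.lv l.cd + (e l).1.fc.toRight.card = T.lv (e l).1.cd) ∧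
      (∀ z, Z'.w cl m z = ng (((D : ℝ) ^ 2 * Λ) • bk (Gam T (cO cl O) Unit m) Live)
        (pz Z r c D (toR z ∘ e.symm))) ∧
      (∀ z, qq (Gam T' cl Unit m) (Z'.ps cl m z) = (D : ℝ) ^ 2 * Λ *
        qq (bk (Gam T (cO cl O) Unit m) Live) (pz Z r c D (toR z ∘ e.symm))) ∧
      ∀ f z A, Z'.F cl m f z A () = Z.F (cO cl O) m f (xp r D (z ∘ e.symm)) (upz μ A) ()

theorem can : CAN' := by
  intro s N T K W O _ _ _ _ cl m Z μ r c D Λ Y hT hZ hD hΛ hY
  have hD' : (1 : ℝ) ≤ (D : ℤ) := by exact_mod_cast hD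
  let u : Lp T cl O m → ℝ := fun k => (if h : Live k then c ⟨k, h⟩ else 0) - r k
  have h := pre_tx (r := toR r) (u := u) (μ := μ) hT hZ hD' hΛ
  have hz : (zx r u D Λ Z μ).Ok := ⟨ok_fx hZ, fun _ => rfl⟩
  refine ⟨_, fltS (zx r u D Λ Z μ), eL, ok_tx hT hZ hD' hΛ, h.okS hz, up_tx hT hZ hD' hΛ,
    fun i hi => ?_, fun l => ⟨rfl, toLeft_disjSum, ?_⟩, fun z => ?_, fun z => ?_,
    fun f z A => (h.F hz f z A ()).trans (F_zx hT f z A)⟩
  · have hS : ∀ F : ℕ → ℝ, (∀ e, 0 ≤ F e) →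
        0 ≤ ((Fintype.card O : ℝ) + 1) ^ m * ∑ j ∈ Ioo i m, F j := fun F k =>
      mul_nonneg (by positivity) (sum_nonneg fun e _ => k e)
    have hd : ∀ e, 0 ≤ T.dm e := fun e => Nat.cast_nonneg _
    rw [h.yy, P057AD.dm_flt, dm_card]
    rcases Nat.eq_zero_or_pos i with rfl | h0
    · have : IsEmpty {j // (tx (toR r) u D Λ Z μ).lv j = 0} := ⟨fun j => (h.pos j).ne' j.2⟩
      have : IsEmpty {a // T.lv a = 0} := ⟨fun a => (hT.pos a).ne' a.2⟩
      simp only [Tow.yy, det_isEmpty, Fintype.card_eq_zero, Nat.cast_zero, zero_mul, zero_div,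
        add_zero]
      exact ⟨add_nonneg (hd 0) (hS _ hd), le_add_of_nonneg_right (hS _ fun e => (hY e).1)⟩
    · refine ⟨(card_lx hi h0).trans_le (sum_card hi hd fun _ _ => le_rfl), ?_⟩
      have h1 : Real.log (bk (tx (toR r) u D Λ Z μ).G fun a => (tx (toR r) u D Λ Z μ).lv a = i).det =
          _ + (Fintype.card {a // (tx (toR r) u D Λ Z μ).lv a = i} : ℝ) *
            Real.log ((D : ℝ) ^ 2 * Λ) := logdet (O := O) hT hD' hΛ hi h0
      have h2 := sum_card (O := O) hi (F := fun e => Real.log (bk T.G fun a => T.lv a = e).det)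
        (Y := fun e => 2 * Y e) (fun e => by linarith [(hY e).1]) fun e he => by
          have := (hY e).2
          rw [Tow.yy, if_neg (by omega)] at this
          linarith
      rw [← mul_sum] at h2
      unfold Tow.yy
      linarith
  · change lx l.cd + (l.fc.disjSum l.cd.1.2).toRight.card = T.lv l.cd.1.1
    rw [toRight_disjSum, lx, Nat.sub_add_cancel l.cd.2.1.le]
  · exact (h.w hz z).trans ((congrArg₂ ng (gam_tg hT D Λ) (ps_zx hZ r c D rfl z)).trans
      (ng_submatrix _ eL _))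
  · exact (h.qq_ps hz z).trans ((congrArg₂ qq (gam_tg hT D Λ) (ps_zx hZ r c D rfl z)).trans
      ((qq_submatrix _ eL _).trans (qq_smul_mat _ _ _)))

end

end Vale.Agent.P057FC
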