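import Vale.Agent.P057FC.Trx
import Vale.Agent.P057TL.Trunc
import Vale.Agent.P057SH.Mass
import Vale.Agent.P057GH.Mix
import Vale.Agent.P057TE.Thb

/-! Transfer, choice of the frozen coordinates, choice of a coset. -/

set_option linter.all false

open Matrix Finset
open Vale.Agent.P267.H775 Vale.Agent.P057G Vale.Agent.P057PC Vale.Agent.P057ST
open Vale.Agent.P057TL (Fr er_split)

namespace Vale.Agent.P057FC

variable {I K : Type} [Fintype I] [DecidableEq I] [Fintype K] [DecidableEq K] {lv : I → ℕ}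
  {p : (I → ℤ) → I → ℝ} {G : Matrix I I ℝ} {Q : I → Prop} [DecidablePred Q]

theorem pick {pb : ({l // ¬ Q l} → ℤ) → {l // ¬ Q l} → ℝ} (hp : Tri lv p) (hG : G.PosDef)
    (ho : Ort G Q) (hs : Spl Q p pb) {H : (I → ℤ) → ℝ} {B σ M : ℝ} (hH : ∀ z, |H z| ≤ B)
    (h0 : 0 < σ) (hM : ms (bk G fun l => ¬ Q l) pb ≤ M) (M0 : 0 < M) (h : σ ≤ Er G p H) :
    ∃ y, σ / (2 * M) ≤ Fr G Q p H y := by
  by_contra hc
  simp only [not_exists, not_le] at hc
  have e := er_split hp hG ho hs hH (K := fun _ => 1) (D := 1) (by simp)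
  simp only [mul_one] at e
  obtain ⟨C, hC⟩ := Fx_bdd hp hG Q (f := fun z => (H z : ℂ)) (C := B) fun z => by simpa using hH z
  have h1 := (summable_er (hs.tri hp) (posDef_bk hG _) (f := Fr G Q p H) (C := C) fun y => by
      have := hC y
      rwa [show Fx G Q p (fun z => (H z : ℂ)) y = (Fr G Q p H y : ℝ) from Ex_er _ _ _,
        Complex.norm_real] at this).tsum_le_tsum
    (fun y => mul_le_mul_of_nonneg_left (hc y).le (ng_nonneg _ _))
    ((summable_ng (hs.tri hp) (posDef_bk hG _)).mul_right _)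
  rw [tsum_mul_right] at h1
  have h2 := (h.trans (e.le.trans h1)).trans (mul_le_mul_of_nonneg_right hM (by positivity))
  rw [show M * (σ / (2 * M)) = σ / 2 by field_simp] at h2
  linarith

theorem tri_quot (hp : Tri lv p) {e : K → I} {S : Matrix K I ℤ}
    (hS : ∀ k k', S k (e k') = (1 : Matrix K K ℤ) k k') (hlv : ∀ k l, S k l ≠ 0 → lv l ≤ lv (e k))
    {p' : (K → ℤ) → K → ℝ} (hp' : ∀ z, p' (S *ᵥ z) = mR S *ᵥ p z) : Tri (lv ∘ e) p' := by
  have hi : e.Injective := fun k k' c => by_contra fun d => by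
    have := hS k k'
    rw [← c, hS, one_apply_eq, one_apply_ne d] at this
    exact one_ne_zero this
  have h1 : ∀ y : K → ℤ, S *ᵥ Function.extend e y 0 = y := fun y => funext fun k => by
    refine (Fintype.sum_of_injective e hi (fun k' => (1 : Matrix K K ℤ) k k' * y k') _
      (fun i c => ?_) fun k' => ?_).symm.trans (congrFun (one_mulVec y) k)
    · rw [Function.extend_apply' _ _ _ c]; exact mul_zero _
    · rw [hi.extend_apply, ← hS]
  intro k y y' h
  rw [← h1 y, ← h1 y', hp', hp']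
  refine sum_congr rfl fun i _ => ?_
  by_cases c : S k i = 0
  · simp [mR, c]
  refine congrArg _ (hp i _ _ fun j hj => ?_)
  by_cases d : ∃ k', e k' = j
  · obtain ⟨k', rfl⟩ := d
    rw [hi.extend_apply, hi.extend_apply]
    exact h k' (hj.trans_le (hlv k i c))
  · rw [Function.extend_apply' _ _ _ d, Function.extend_apply' _ _ _ d]

theorem tri_mu (hp : Tri lv p) {X : (I → ℤ) → I → ℤ} (mu : I → ℤ)
    (hX : ∀ i ξ ξ', ξ i = ξ' i → X ξ i = X ξ' i) : Tri lv fun ξ i => p (X ξ) i / mu i :=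
  fun i _ _ h => congrArg (· / _) (hp i _ _ fun j hj => hX j _ _ (h j hj))

/-- the point of the coset -/
def cs (Q : I → Prop) [DecidablePred Q] (mu : I → ℤ) (D : ℕ) (ρ : I → ℤ) (y : {i // Q i} → ℤ)
    (i : I) : ℤ := ρ i + if h : Q i then D / mu i * y ⟨i, h⟩ else 0

theorem tra (hp : Tri lv p) (hG : G.PosDef) (hb : ∀ i j, lv i ≠ lv j → G i j = 0) (ho : Ort G Q)
    (hs : ∀ z z' i, ¬Q i → (∀ j, ¬Q j → z j = z' j) → p z i = p z' i) {mu : I → ℤ}
    {X : (I → ℤ) → I → ℤ} {D : ℕ} (hD : 0 < D) (hm : ∀ i, 0 < mu i ∧ mu i ∣ D ∧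
      (¬Q i → mu i = 1) ∧ (∀ ξ, Q i → X ξ i = mu i * ξ i) ∧ ∀ ξ ξ', ξ i = ξ' i → X ξ i = X ξ' i)
    {e : K → I} {S : Matrix K I ℤ} (hS : ∀ k k', S k (e k') = (1 : Matrix K K ℤ) k k')
    (hlv : ∀ k l, S k l ≠ 0 → lv l ≤ lv (e k)) {p' : (K → ℤ) → K → ℝ}
    (hp' : ∀ ξ, p' (S *ᵥ ξ) = mR S *ᵥ fun i => p (X ξ) i / mu i) {A : Matrix K K ℝ}
    (hA : A.PosDef) {Λ B σ : ℝ} (hΛ : 1 ≤ Λ) (hAG : ∀ v, qq A (mR S *ᵥ v) ≤ Λ * qq G (toR mu * v))
    {f : (K → ℤ) → ℝ} (hf : ∀ y, |f y| ≤ B) (h0 : 0 < σ) (h : σ ≤ Er A p' f) :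
    ∃ (ρ : I → ℤ) (c : {i // Q i} → ℝ),
      σ / (4 * ((4 * Λ) ^ Fintype.card I * ms G fun _ => 0)) ≤
        ∑' y : {i // Q i} → ℤ, ng (((D : ℝ) ^ 2 * (4 * Λ)) • bk G Q)
          (fun i => y i - (p (X (cs Q mu D ρ y)) i + c i - X ρ i) / D) * f (S *ᵥ cs Q mu D ρ y) := by
  have m0 : ∀ i, mu i ≠ 0 := fun i => (hm i).1.ne'
  have h1 := tri_mu hp mu fun i => (hm i).2.2.2.2
  have h2 : ((2 * Λ) • dil mu G).PosDef := (posDef_dil m0 hG).smul (by linarith)
  obtain ⟨c, h3⟩ := trx I K lv _ _ e S 0 p' A f B σ h1 h2 hS hlv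
    (fun z => by rw [zero_add, toR_zero, zero_add, hp']) hA
    (fun v => by rw [qq_smul_mat, qq_dil]; linarith [hAG v]) hf h0 h
  have h4 : ((2 : ℝ) • (2 * Λ) • dil mu G).PosDef := h2.smul two_pos
  have h5 : Spl Q (fun ξ i => p (X ξ) i / mu i)
      fun y l => p (X (glue (X := fun _ => ℤ) Q 0 y)) l / mu l := fun z l =>
    congrArg (· / _) (hs _ _ _ l.2 fun j hj => (hm j).2.2.2.2 _ _
      (glue_neg (X := fun _ => ℤ) 0 (rs _ z) hj).symm)
  have h6 : (bk ((2 : ℝ) • (2 * Λ) • dil mu G) fun l => ¬Q l) = (4 * Λ) • bk G fun l => ¬Q l := by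
    ext i j
    simp only [bk, submatrix_apply, Matrix.smul_apply, dil_apply, (hm i).2.2.1 i.2, (hm j).2.2.1 j.2,
      smul_eq_mul]
    push_cast; ring
  have h7 := P057TE.one_le_ms hG
  obtain ⟨y, h8⟩ := pick (tri_add h1 c) h4 (fun i j a b => by simp [dil_apply, ho i j a b])
    (h5.add c) (fun z => hf _) (half_pos h0)
    (M := (4 * Λ) ^ Fintype.card I * ms G fun _ => 0) (by
      refine (P057SH.ms_tri_le (posDef_bk h4 _) (lv := fun l => lv l.1) (fun i j c => by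
        simp [bk, dil_apply, hb _ _ c]) ((h5.add c).tri (tri_add h1 c))).trans ?_
      rw [h6, ms_zero_split hG ho]
      refine (P057GH.ms_smul_le (posDef_bk hG _) (by linarith) 0).trans (mul_le_mul
        (pow_le_pow_right₀ (by linarith) (Fintype.card_subtype_le _)) (le_mul_of_one_le_left
          (ms_nonneg _ _) (P057TE.one_le_ms (posDef_bk hG _))) (ms_nonneg _ _) (by positivity)))
    (by positivity) h3
  have d0 : ∀ i : {i // Q i}, (D : ℤ) / mu i ≠ 0 := fun i c => by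
    have := Int.ediv_mul_cancel (hm i).2.1
    rw [c, zero_mul] at this
    omega
  have d1 : ∀ i, (((D : ℤ) / mu i : ℤ) : ℝ) = D / mu i := fun i => by
    rw [Int.cast_div (hm i).2.1 (by exact_mod_cast m0 i), Int.cast_natCast]
  obtain ⟨r, h9⟩ := exists_cos (tri_pf (tri_add h1 c) Q y) (posDef_bk h4 Q) d0
    (f := fun x => f (0 + S *ᵥ glue (X := fun _ => ℤ) Q x y)) fun z => hf _
  refine ⟨glue Q r y, fun i => mu i * c i, le_trans (le_of_eq (by ring)) ((h8.trans h9).trans_eq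
    (tsum_congr fun z => ?_))⟩
  have e1 : glue (X := fun _ => ℤ) Q (r + (fun i : {i // Q i} => (D : ℤ) / mu i) * z) y =
      cs Q mu D (glue Q r y) z := funext fun i => by
    unfold cs glue; split_ifs <;> simp
  beta_reduce
  rw [zero_add, e1]
  congr 2
  · ext i j
    have a1 : (mu i : ℝ) ≠ 0 := by exact_mod_cast m0 i
    have a2 : (mu j : ℝ) ≠ 0 := by exact_mod_cast m0 j
    simp only [bk, submatrix_apply, Matrix.smul_apply, dil_apply, smul_eq_mul, d1]
    field_simp; ring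
  · funext i
    have a1 : (mu i : ℝ) ≠ 0 := by exact_mod_cast m0 i
    have a2 : (D : ℝ) ≠ 0 := by exact_mod_cast hD.ne'
    simp only [pc, pf, e1, Pi.sub_apply, Pi.add_apply, toR_apply, d1, (hm i).2.2.2.1 _ i.2,
      glue_pos (X := fun _ => ℤ) r y i.2]
    push_cast; field_simp

end Vale.Agent.P057FC
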