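import Vale.Agent.P057FC.Tra
import Vale.Agent.P057FC.Can
import Vale.Agent.P057RG.Up
import Vale.Agent.P057NA.Nar

/-! From the intermediate state to a state on a canonical system. -/

set_option linter.all false

open Matrix Finset
open Vale.Agent.P267.H775 Vale.Agent.P057G Vale.Agent.P057PC Vale.Agent.P057TP Vale.Agent.P057MA
open Vale.Agent.P057SG Vale.Agent.P057AS
open Vale.Agent.P057ST (mR Er)
open Vale.Agent.P057SY (fo WO)

namespace Vale.Agent.P057FC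

noncomputable section

open Classical

theorem num_sum {x o : ℝ} {s m i : ℕ} {F : ℕ → ℝ} (hx : (s : ℝ) + 1 ≤ x) (hm : m ≤ s + 1)
    (h0 : 0 ≤ o) (ho : o ≤ x ^ 2) (hF : ∀ j, i < j → F j ≤ x) :
    o ^ m * ∑ j ∈ Ioo i m, F j ≤ x ^ (2 * s + 4) := by
  have h1 : (1 : ℝ) ≤ x := by linarith [Nat.cast_nonneg (α := ℝ) s]
  have h2 : ((Ioo i m).card : ℝ) ≤ x := by
    refine le_trans ?_ hx
    rw [Nat.card_Ioo]
    exact_mod_cast (by omega : m - i - 1 ≤ s + 1)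
  have h3 := (sum_le_card_nsmul _ F x fun j hj => hF j (mem_Ioo.1 hj).1).trans
    ((nsmul_eq_mul _ _).trans_le (mul_le_mul_of_nonneg_right h2 (by linarith)))
  have h4 : o ^ m ≤ (x ^ 2) ^ (s + 1) :=
    (pow_le_pow_left₀ h0 ho _).trans (pow_le_pow_right₀ (one_le_pow₀ h1) hm)
  refine (mul_le_mul_of_nonneg_left h3 (pow_nonneg h0 _)).trans
    ((mul_le_mul_of_nonneg_right h4 (by positivity)).trans_eq (by ring))

theorem num_grow {x a a' y y' E E' F : ℝ} {t c : ℕ} (hx : 2 ≤ x) (h0 : 0 ≤ a) (h0' : 0 ≤ a')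
    (hc : t + 6 ≤ c) (hE : E ≤ x ^ t) (hE' : E' ≤ x ^ t) (hF : F ≤ 2 * x ^ 5) (h1 : a' ≤ a + E)
    (h2 : y' ≤ y + E' + a' * F / 2) : a' ≤ a + x ^ c ∧ y' ≤ y + (a + 1) * x ^ c := by
  have x1 : 1 ≤ x := by linarith
  have k1 : x ^ t * x ^ 5 * x ≤ x ^ c := by
    rw [← pow_add, ← pow_succ]; exact pow_le_pow_right₀ x1 hc
  have k2 : 1 ≤ x ^ t := one_le_pow₀ x1
  have k3 : 1 ≤ x ^ 5 := one_le_pow₀ x1
  have k4 : x ^ t ≤ x ^ t * x ^ 5 := le_mul_of_one_le_right (by linarith) k3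
  have k5 : x ^ 5 ≤ x ^ t * x ^ 5 := le_mul_of_one_le_left (by linarith) k2
  have k6 : x ^ t * x ^ 5 * 2 ≤ x ^ c :=
    (mul_le_mul_of_nonneg_left hx (by positivity)).trans k1
  have k7 := mul_le_mul_of_nonneg_left hF h0'
  have k8 := mul_le_mul_of_nonneg_right (h1.trans (add_le_add_right hE a)) (zero_le_one.trans k3)
  have k9 := mul_le_mul_of_nonneg_left (show x ^ 5 ≤ x ^ c by linarith) h0
  constructor <;> nlinarith

theorem num_lam {U ω a : ℝ} {N : ℕ} (hU : 20 ≤ U) (h0 : 0 ≤ ω) (h1 : ω ≤ Real.exp U)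
    (ha : a ≤ 2 * U) (hN : (N : ℝ) ≤ U ^ 2) :
    4 * (ω ^ 2 * Real.exp (a * U) + 2 * 8 ^ N) ≤ Real.exp (U ^ 3) := by
  have k1 : ω ^ 2 * Real.exp (a * U) ≤ Real.exp (3 * U ^ 2) := by
    refine (mul_le_mul_of_nonneg_right (pow_le_pow_left₀ h0 h1 2) (Real.exp_pos _).le).trans ?_
    rw [← Real.exp_nat_mul, ← Real.exp_add]
    exact Real.exp_le_exp.2 (by push_cast; nlinarith)
  have k2 : (8 : ℝ) ^ N ≤ Real.exp (3 * U ^ 2) := by
    refine (pow_le_pow_left₀ (by norm_num) (show (8 : ℝ) ≤ Real.exp 3 by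
      have := pow_le_pow_left₀ (by norm_num) (Real.add_one_le_exp 1) 3
      rw [← Real.exp_nat_mul] at this
      norm_num at this ⊢; exact this) N).trans ?_
    rw [← Real.exp_nat_mul]
    exact Real.exp_le_exp.2 (by linarith)
  have k3 := mul_le_mul_of_nonneg_right (Real.add_one_le_exp 11) (Real.exp_pos (3 * U ^ 2)).le
  rw [← Real.exp_add] at k3
  have k4 := Real.exp_le_exp.2 (show 11 + 3 * U ^ 2 ≤ U ^ 3 by nlinarith)
  linarith

theorem num_sig {X Λ M : ℝ} {N t c : ℕ} (hX : 20 ≤ X) (h0 : 0 ≤ Λ) (h1 : Λ ≤ Real.exp (X ^ 3))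
    (hN : (N : ℝ) ≤ X ^ t) (M0 : 0 ≤ M) (hM : M ≤ Real.exp (N * (X + 4 * (X + 1) ^ 2)))
    (hc : t + 5 ≤ c) : 4 * (Λ ^ N * M) ≤ Real.exp (X ^ c) := by
  have x1 : 1 ≤ X := by linarith
  have k1 := pow_le_pow_left₀ h0 h1 N
  rw [← Real.exp_nat_mul] at k1
  have k2 := mul_le_mul k1 hM M0 (Real.exp_pos _).le
  refine (mul_le_mul (show (4 : ℝ) ≤ Real.exp 3 by linarith [Real.add_one_le_exp 3]) k2
    (by positivity) (Real.exp_pos _).le).trans ?_
  rw [← Real.exp_add, ← Real.exp_add, ← mul_add]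
  have k3 : X ^ t * X ^ 4 * X ≤ X ^ c := by
    rw [← pow_add, ← pow_succ]; exact pow_le_pow_right₀ x1 hc
  have k4 : 1 ≤ X ^ t * X ^ 4 := one_le_mul_of_one_le_of_one_le (one_le_pow₀ x1) (one_le_pow₀ x1)
  have u3 : X ^ 3 * 20 ≤ X ^ 4 := mul_le_mul_of_nonneg_left hX (by positivity)
  have u2 : X ^ 2 * 20 ≤ X ^ 3 := mul_le_mul_of_nonneg_left hX (by positivity)
  have k5 := mul_le_mul hN (show X ^ 3 + (X + 4 * (X + 1) ^ 2) ≤ X ^ 4 by nlinarith)
    (by positivity) (by positivity)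
  exact Real.exp_le_exp.2 (by nlinarith)

/-- the factor between the Gram matrices -/
def lam {T : Tow} {n p : ℕ} {R ι : Type} [Fintype R] (M : Mdd T n p R ι) (ω : ℝ) (k : ℕ) (U : ℝ) :
    ℝ := ω ^ 2 * Real.exp ((n + 2) * ((2 * k + 1) * U)) +
  2 * 8 ^ (Fintype.card (Uv n p R) + Fintype.card (Wz n p M.O) + 1)

theorem one_le_lam {T : Tow} {n p : ℕ} {R ι : Type} [Fintype R] (M : Mdd T n p R ι) (ω : ℝ) (k : ℕ)
    (U : ℝ) : 1 ≤ lam M ω k U := le_add_of_nonneg_of_le (by positivity)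
  (one_le_mul_of_one_le_of_one_le one_le_two (one_le_pow₀ (by norm_num)))

theorem nums {T : Tow} {n p s j k d : ℕ} {R ι : Type} [Fintype ι] [DecidableEq ι] [Fintype R]
    [DecidableEq R] {M : Mdd T n p R ι} {Z : Sys T (Uv n p R) Unit} {γ U ω : ℝ}
    {S : MS (Option (Fin n)) ι} {φ : (ι → ℝ) → Lu T n p R → ℝ} (hM : Md M Z γ S φ k U)
    (hn : n + 1 ≤ s) (hk : k ≤ j) (hp : (p : ℝ) ≤ U) (hR : (Fintype.card R : ℝ) ≤ U)
    (b0 : ((j : ℝ) + 3) * (s + 2) + 20 ≤ U) (o1 : 1 ≤ ω) (o2 : ω ≤ Real.exp U) (d0 : 0 < d)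
    (d1 : (d : ℝ) ≤ Real.exp U) : (Fintype.card (Wz n p M.O) + 1 : ℝ) ≤ U ^ 2 ∧
      4 * lam M ω k U ≤ Real.exp (U ^ 3) ∧
      Real.log (((d * ∏ u, M.e u : ℕ) : ℝ) ^ 2 * (4 * lam M ω k U)) ≤ 2 * U ^ 5 := by
  have s0 := Nat.cast_nonneg (α := ℝ) s
  have j0 := Nat.cast_nonneg (α := ℝ) j
  have b1 : 20 ≤ U := by nlinarith
  have U0 : 0 ≤ U := by linarith
  have Λ1 := one_le_lam M ω k U
  set Λ := lam M ω k U
  have n1 : (n : ℝ) + 1 ≤ s := by exact_mod_cast hn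
  have k1 : (k : ℝ) ≤ j := by exact_mod_cast hk
  have n0 := Nat.cast_nonneg (α := ℝ) n
  have k0 := Nat.cast_nonneg (α := ℝ) k
  have np : (n : ℝ) * p ≤ s * U := mul_le_mul (by linarith) hp (Nat.cast_nonneg _) s0
  have cO : (Fintype.card M.O : ℝ) ≤ Fintype.card (Uv n p R) + k * (n * p) := by
    exact_mod_cast hM.cO
  have cU : (Fintype.card (Uv n p R) : ℝ) = n * p + Fintype.card R := by simp
  have cW : (Fintype.card (Wz n p M.O) : ℝ) = n * p + (Fintype.card M.O + 1) := by simp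
  have knp := mul_le_mul k1 np (by positivity) j0
  have cN : (Fintype.card (Uv n p R) + Fintype.card (Wz n p M.O) + 1 : ℝ) ≤ U ^ 2 := by
    nlinarith [mul_le_mul_of_nonneg_right (b0) U0, b1]
  have cW1 : (Fintype.card (Wz n p M.O) + 1 : ℝ) ≤ U ^ 2 := by
    linarith [Nat.cast_nonneg (α := ℝ) (Fintype.card (Uv n p R))]
  have hΛ : 4 * Λ ≤ Real.exp (U ^ 3) := by
    have u : ((n : ℝ) + 2) * (2 * k + 1) ≤ (s + 1) * (2 * j + 1) := 
      mul_le_mul (by linarith) (by linarith) (by positivity) (by positivity)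
    have := num_lam (a := (n + 2) * (2 * k + 1)) (b1) (by linarith) o2
      (by nlinarith [b0])
      (N := Fintype.card (Uv n p R) + Fintype.card (Wz n p M.O) + 1) (by exact_mod_cast cN)
    rwa [mul_assoc ((n : ℝ) + 2)] at this
  have hD : ((d * ∏ u, M.e u : ℕ) : ℝ) ≤ Real.exp (U + U ^ 2 * (U * U)) := by
    push_cast
    rw [Real.exp_add]
    refine mul_le_mul d1 ((prod_le_prod (fun _ _ => Nat.cast_nonneg _)
      fun u _ => (hM.eb u).2).trans ?_) (by positivity) (Real.exp_pos _).le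
    rw [prod_const, ← Real.exp_nat_mul]
    refine Real.exp_le_exp.2 (mul_le_mul (le_trans (le_of_eq ?_) ((le_add_of_nonneg_right
      zero_le_one).trans cW1)) (mul_le_mul_of_nonneg_right (by nlinarith [b0]) U0)
      (by positivity) (by positivity))
    rw [cW]; simp [add_assoc]
  refine ⟨cW1, hΛ, ?_⟩
  · have D0 : 0 < d * ∏ u, M.e u := Nat.mul_pos d0 (prod_pos fun u _ => (hM.eb u).1)
    have D1 : (0 : ℝ) < (d * ∏ u, M.e u : ℕ) := Nat.cast_pos.2 D0
    refine (Real.log_le_iff_le_exp (by positivity)).2 ((mul_le_mul (pow_le_pow_left₀ D1.le hD 2) hΛ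
      (by positivity) (by positivity)).trans ?_)
    rw [← Real.exp_nat_mul, ← Real.exp_add]
    have u1 := b1
    have u2 : U ≤ U ^ 3 := le_self_pow₀ (by linarith) three_ne_zero
    have u3 : U ^ 3 * 20 ≤ U ^ 4 := mul_le_mul_of_nonneg_left u1 (pow_nonneg U0 3)
    have u4 : U ^ 4 * 20 ≤ U ^ 5 := mul_le_mul_of_nonneg_left u1 (pow_nonneg U0 4)
    exact Real.exp_le_exp.2 (by push_cast; nlinarith)

theorem trf (hS : SEC) (hC : CEN) (hO : OLD) (hG : GRM) (hF : FUB) (s : ℕ) : TRF s := by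
  intro j
  refine ⟨(j + 3) * (s + 2) + 20, by omega, fun N P T n p R _ _ Z f θ γ k ι _ _ S φ M hL hT hX hZ
    hn _ hp hR hSo hk hM => ?_⟩
  have l0 : Antitone P := antitone_nat_of_succ_le hL.anti
  have s0 := Nat.cast_nonneg (α := ℝ) s
  have j0 := Nat.cast_nonneg (α := ℝ) j
  have b0 : ∀ e, ((j : ℝ) + 3) * (s + 2) + 20 ≤ P e := fun e => by exact_mod_cast hL.big e
  have b1 : ∀ e, 20 ≤ P e := fun e => by nlinarith [b0 e]
  have b2 : ∀ e, (s : ℝ) + 1 ≤ P e := fun e => by nlinarith [b0 e]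
  set U := P (n + 2)
  have U0 : 0 ≤ U := by linarith [b1 (n + 2)]
  refine ⟨cz M Z, (hS s N T n p R ι M Z γ S φ k U 1 hT hZ hSo hM U0 one_pos).2.2.2,
    fun B κ σ ω d G h o1 o2 d0 d1 hGp hGl hh hB σ0 hst => ?_⟩
  obtain ⟨⟨e, e1, e2⟩, hm, hβ, -⟩ := hS s N T n p R ι M Z γ S φ k U d hT hZ hSo hM U0 d0
  have c1 := hC s N T n p R ι M Z γ S φ k U d hT hZ hSo hM U0 d0
  obtain ⟨q1, q2⟩ := hO s N T n p R ι M Z γ S φ k U d hT hZ hSo hM U0 d0
  have g1 := hG s N T n p R ι M Z γ S φ k U d hT hZ hSo hM U0 d0 ω G o1 hGl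
  have hZ' : (Zz M Z).Ok := P057DP.ok_pbo hZ _ _
  have t1 := P057GH.tri_pr (cl := cZ n p M.O) (m := n + 2) hT hZ'
  obtain ⟨a1, a2⟩ := hF s N T n p R ι M Z γ S φ k U d hT hZ hSo hM U0 d0 (cz M Z) ω G h f θ B κ σ _
    o1 hGp hh hB (tri_quot (tri_mu t1 (mz M d) fun i => (hm i).2.2.2.2) e1 e2 c1) hst
  have B0 : 0 ≤ B := (abs_nonneg _).trans (hB 0)
  have f1 : ∀ x z y, |h x z * EG Z f θ y| ≤ B := fun x z y => by
    rw [abs_mul]; exact (mul_le_mul (hh x z) (hB y) (abs_nonneg _) zero_le_one).trans_eq (one_mul _)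
  have D0 : 0 < d * ∏ u, M.e u := Nat.mul_pos d0 (prod_pos fun u _ => (hM.eb u).1)
  have Λ1 := one_le_lam M ω k U
  set Λ := lam M ω k U
  have pG := P057GH.pd_Gam hT.pd (cZ n p M.O) Unit (n + 2)
  obtain ⟨ρ, c, hρ⟩ := tra t1 pG (P057NA.Gam_blk hT.blk) (Q := Live)
    (fun a b ha hb => P057NA.Gam_zero fun u v => (hb (by unfold Live; rwa [← u, ← v])).elim)
    (fun z z' i hi hz => P057GH.pr_congr hT hZ' fun l u v _ => congrArg _ (hz l fun w => hi (w.imp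
      (fun w => v.elim (fun v => absurd v w) (· ▸ w)) fun w => w.mono (toLeft_subset_toLeft u))))
    D0 hm e1 e2 c1 a1 Λ1 g1 (B := B + |κ|) (fun y => (abs_sub _ _).trans (add_le_add_left (f1 _ _ _) _))
    σ0 a2
  obtain ⟨T', Z', eL, hT', hZ'', hU, hg, hl, hw, -, hf⟩ := can s N T _ _ _ Prod.fst (n + 2) (Zz M Z)
    (muz M.π) (Xz M d ρ) c _ (4 * Λ) P hT hZ' D0 (by linarith)
    fun e => ⟨by linarith [b1 e], (hX e).2⟩
  obtain ⟨cW1, hΛ, hlog⟩ := nums hM hn hk hp hR (b0 _) o1 o2 d0 d1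
  -- the substitution
  let ξ := fun z : Lb T' Prod.fst Unit (n + 2) → ℤ => cs Live (mz M d) (d * ∏ u, M.e u) ρ (z ∘ eL.symm)
  have x1 : ∀ y, Xz M d (cs Live (mz M d) (d * ∏ u, M.e u) ρ y) =
      xp (Xz M d ρ) (d * ∏ u, M.e u : ℕ) y := fun y => funext fun i => by
    unfold xp
    split_ifs with a
    · rw [(hm i).2.2.2.1 _ a, (hm i).2.2.2.1 _ a, cs, dif_pos a, mul_add, ← mul_assoc,
        Int.mul_ediv_cancel' (hm i).2.1]
    · exact ((hm i).2.2.2.2 _ _ (by rw [cs, dif_neg a, add_zero])).trans (add_zero _).symm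
  have x2 : ∀ z, EG Z f θ (ok M φ d (Sz M *ᵥ ξ z)) = Z'.Ex0 Prod.fst (n + 2) f θ z := fun z => by
    rw [q1, x1, EG, Sys.Ex0, Fintype.card_unit, mul_one]
    refine congrArg (· - _) (prod_congr rfl fun A hA => ?_)
    rw [q2 f _ A hA, ← hf, Fintype.prod_unique]
  have x3 : ∀ z, xe M.lab (fun l => eL.symm ⟨ic l.1, (hβ l).1⟩) (fun l => ρ (ic l.1))
      (fun l => (d * ∏ u, M.e u : ℕ) / mz M d (ic l.1)) z = xk M (Sz M *ᵥ ξ z) := fun z => by
    refine congrArg (Function.extend M.lab · 0) (funext fun l => ?_)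
    simp only [Function.comp, mulVec, dotProduct, Sz, of_apply, Sum.elim_inl, ite_mul, one_mul,
      zero_mul, sum_ite_eq', mem_univ, if_true, ξ, cs, dif_pos (hβ l).1]
  refine ⟨T', Z', fun l => eL.symm ⟨ic l.1, (hβ l).1⟩, fun l => ρ (ic l.1),
    fun l => (d * ∏ u, M.e u : ℕ) / mz M d (ic l.1), fun z => zk M (Sz M *ᵥ ξ z), hT', hZ'', hU,
    fun i => ?_, fun l => ?_, fun z z' hz => funext fun l => sum_congr rfl fun i _ => ?_,
    fun z => by beta_reduce; rw [← x2]; exact f1 _ _ _, ?_⟩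
  · have d2 : ∀ T : Tow, 0 ≤ T.dm i := fun _ => Nat.cast_nonneg _
    have p0 : 0 ≤ P (i + 1) := by linarith [b1 (i + 1)]
    by_cases hi : i < n + 2
    · have u1 : U ≤ P (i + 1) := l0 hi
      have u2 : (Fintype.card (Option M.O) + 1 : ℝ) ≤ P (i + 1) ^ 2 := by
        refine le_trans ?_ (cW1.trans (pow_le_pow_left₀ U0 u1 2))
        exact_mod_cast Nat.succ_le_succ (Fintype.card_le_of_injective _ Sum.inr_injective)
      exact num_grow (by linarith [b1 (i + 1)]) (d2 T) (d2 T') (by nlinarith)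
        (num_sum (b2 _) (by omega) (by positivity) u2 fun e he => (hX e).1.trans (l0 he))
        (num_sum (b2 _) (by omega) (by positivity) u2 fun e he => l0 he)
        (hlog.trans (by gcongr)) (hg i hi).1 (hg i hi).2
    · rw [P057RG.up_dm hU (not_lt.1 hi), P057RG.up_yy hU N (not_lt.1 hi)]
      exact ⟨le_add_of_nonneg_right (pow_nonneg p0 _), le_add_of_nonneg_right
        (mul_nonneg (by linarith [d2 T]) (pow_nonneg p0 _))⟩
  · obtain ⟨u1, u2, u3⟩ := hl (eL.symm ⟨ic l.1, (hβ l).1⟩)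
    rw [Equiv.apply_symm_apply] at u1 u2 u3
    refine ⟨(hβ l).2.1.imp u1.symm.trans fun v => ?_, Finset.ext fun v => ?_⟩
    · have := card_toLeft_add_card_toRight (u := (ic l.1).fc)
      rw [← u2]; dsimp only at u3 ⊢; omega
    · rw [(hβ l).2.2, fo, ← u1, ← u2]
      cases v <;> split_ifs with a <;> simp [a]
  · by_cases a : i.bs = none
    · refine congrArg (_ * ·) (congrArg (ρ i + ·) ?_)
      split_ifs with b
      exacts [congrArg _ (hz _ (by rw [← (hl _).1, Equiv.apply_symm_apply]; exact a)), rfl]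
    · simp [Sz, a]
  · have X1 := b1 0
    have u1 : U ≤ P 0 := l0 (Nat.zero_le _)
    have u2 : P 0 ≤ P 0 ^ 2 := le_self_pow₀ (by linarith) two_ne_zero
    have u3 := P057NA.card_Lb (cl := cZ n p M.O) (S := Unit) (m := n + 2) hT
      (fun e => (hX e).1.trans ((l0 e.zero_le).trans u2))
      (by rw [Fintype.card_unit, Nat.cast_one]; exact cW1.trans (pow_le_pow_left₀ U0 u1 2))
    have u4 := num_sig X1 (by linarith) (hΛ.trans (Real.exp_le_exp.2 (pow_le_pow_left₀ U0 u1 3)))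
      (t := 1 + 2 + 3 * (s + 1)) (c := (j + 3) * (s + 2) + 20) (u3.trans (by
        rw [pow_add (P 0), pow_add (P 0), pow_mul, pow_one]
        gcongr
        exacts [b2 0, by nlinarith])) (ms_nonneg _ _)
      (P057NA.ms_Gam hT hL.one (by positivity) fun e => by
        have := (hX e).1.trans (l0 e.zero_le)
        have : 0 ≤ T.dm e := Nat.cast_nonneg _
        have := (hX e).2.trans (l0 e.zero_le)
        gcongr) (by nlinarith)
    have u5 := P057TE.one_le_ms pG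
    refine le_trans ?_ (hρ.trans_eq ?_)
    · rw [Real.exp_neg, ← div_eq_mul_inv]
      exact div_le_div_of_nonneg_left σ0.le (by positivity) u4
    · rw [← (Equiv.arrowCongr eL (Equiv.refl ℤ)).tsum_eq]
      refine tsum_congr fun z => ?_
      beta_reduce
      rw [hw, x3, ← x2]
      refine congrArg₂ (· * ·) (congrArg _ (funext fun i => ?_)) rfl
      refine congrArg (_ - ·) (congrArg (· / _) (congrArg (· - _) (congrArg (· + _) ?_)))
      refine congrArg ((Zz M Z).pr _ _ · i.1) ((congrArg toR (x1 _)).trans (funext fun l => ?_))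
      simp only [xp, toR_apply]
      split_ifs <;> simp

end

end Vale.Agent.P057FC
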