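import Vale.Agent.P057FC.Defs
import Vale.Agent.P057PC.Del

/-! Transfer of a signed lower bound along an integer map with a section. -/

set_option linter.all false

open Matrix Finset
open Vale.Agent.P267.H775 Vale.Agent.P057G Vale.Agent.P057PC Vale.Agent.P057ST

namespace Vale.Agent.P057FC

theorem trx : TRX := by
  intro L K _ _ _ _ lv p Γ e S r p' A f B σ hp hΓ hS hlv hp' hA hAΓ hf h0 hσ
  by_contra hc
  simp only [not_exists, not_le] at hc
  have h2 : ((2 : ℝ) • Γ).PosDef := hΓ.smul two_pos
  obtain ⟨M, hM⟩ := ms_bdd h2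
  have hB : 0 ≤ B := (abs_nonneg _).trans (hf 0)
  have e1 : Er A (fun y => p' (r + y) - toR r) (fun y => f (r + y)) = Er A p' f := by
    unfold Er
    rw [← (Equiv.addLeft r).tsum_eq fun z => ng A (toR z - p' z) * f z]
    refine tsum_congr fun y => congrArg (ng A · * _) (funext fun k => ?_)
    simp only [Pi.sub_apply, toR_apply, Equiv.coe_addLeft, Pi.add_apply, Int.cast_add]
    ring
  have h := Ex_transfer hp hΓ e S hS hlv (p' := fun y => p' (r + y) - toR r)
    (fun z => by simp only [hp', add_sub_cancel_left]) hA hAΓ (f := fun y => (f (r + y) : ℂ))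
    (C := B) (fun y => by simpa using hf _) (a := ((σ / 2 - (σ + B * |M|) : ℝ) : ℂ))
    (η := σ + B * |M|) fun G hG hGΓ => by
      have h3 : ((2 : ℝ) • Γ - G).PosDef := posDef_of_le hΓ (h2.1.sub hG.1) fun x => by
        have := qq_add_mat ((2 : ℝ) • Γ - G) G x
        rw [sub_add_cancel, qq_smul_mat] at this
        linarith [hGΓ x]
      obtain ⟨c, h4⟩ := exists_mix hp hG h3 (f := fun z => f (r + S *ᵥ z)) fun z => hf _
      obtain ⟨d, h5⟩ := exists_mix hp hG h3 (f := fun z => -1 * f (r + S *ᵥ z)) (C := B)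
        fun z => by simpa using hf _
      have h6 := er_le (tri_add hp d) h2 (f := fun z => -1 * f (r + S *ᵥ z)) (C := B)
        fun z => by simpa using hf _
      have h7 := mul_le_mul_of_nonneg_left ((hM lv _ (tri_add hp d)).trans (le_abs_self M)) hB
      rw [er_mul] at h5
      have h8 := mul_nonneg hB (abs_nonneg M)
      rw [Ex_er G p fun z => f (r + S *ᵥ z), ← Complex.ofReal_sub, Complex.norm_real,
        Real.norm_eq_abs, abs_le]
      constructor <;> linarith [hc c]
  rw [Ex_er A _ fun y => f (r + y), e1, ← Complex.ofReal_sub, Complex.norm_real,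
    Real.norm_eq_abs, abs_le] at h
  linarith [h.2]

end Vale.Agent.P057FC
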